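import Vale.Agent.P068.Sep
import Mathlib.Data.Real.Basic
import Mathlib.Algebra.Order.Group.Indicator
import Mathlib.Algebra.Order.BigOperators.Group.Finset
import Mathlib.Tactic.Linarith
import Mathlib.Tactic.Positivity
import Mathlib.Order.Filter.AtTopBot.Basic
import Mathlib.Data.Set.Card
import Mathlib.Data.Nat.Log

open Set Filter

namespace Vale.Agent.P068.ZFC

open Vale.Agent.P068 (Loc U fib)

/-- The block `e` of a fibre: an interval of length `2 ^ e`. -/
def blk (e : ℕ) : Finset ℕ := Finset.Ico (2 ^ e - 1) (2 ^ (e + 1) - 1)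

lemma card_blk (e : ℕ) : (blk e).card = 2 ^ e := by
  have := Nat.one_le_two_pow (n := e)
  simp [blk, pow_succ]
  omega

/-- The block containing a number. -/
def blkOf (i : ℕ) : ℕ := Nat.log 2 (i + 1)

lemma blkOf_eq {e i : ℕ} (h : i ∈ blk e) : blkOf i = e := by
  have := Nat.one_le_two_pow (n := e)
  simp only [blk, Finset.mem_Ico, pow_succ] at h
  exact Nat.log_eq_of_pow_le_of_lt_pow (by omega) (by rw [pow_succ]; omega)

/-- Negligible functions on a fibre: the block averages tend to zero along the ultrafilter. -/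
def Negl (f : ℕ → ℝ) : Prop :=
  ∀ k : ℕ, {e | (k : ℝ) * |∑ i ∈ blk e, f i| ≤ (2 : ℝ) ^ e} ∈ U

lemma eventually_mem_U {p : ℕ → Prop} (h : ∀ᶠ e in atTop, p e) : {e | p e} ∈ U := by
  obtain ⟨N, hN⟩ := eventually_atTop.1 h
  refine Filter.mem_of_superset
    (compl_mem_U.2 (finite_notMem_U (Set.finite_Iio N))) fun e he => hN e ?_
  simpa using he

lemma Negl.add {f g : ℕ → ℝ} (hf : Negl f) (hg : Negl g) : Negl fun i => f i + g i := by
  intro k
  refine Filter.mem_of_superset (Filter.inter_mem (hf (2 * k)) (hg (2 * k))) ?_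
  rintro e ⟨h1, h2⟩
  simp only [mem_ofPred_eq, Nat.cast_mul, Nat.cast_ofNat] at h1 h2 ⊢
  rw [Finset.sum_add_distrib]
  have := abs_add_le (∑ i ∈ blk e, f i) (∑ i ∈ blk e, g i)
  have hk : (0 : ℝ) ≤ k := Nat.cast_nonneg k
  nlinarith

lemma Negl.neg {f : ℕ → ℝ} (hf : Negl f) : Negl fun i => -f i := fun k => by
  simpa [Finset.sum_neg_distrib] using hf k

lemma Negl.of_eq {f g : ℕ → ℝ} (hf : Negl f) (h : ∀ i, f i = g i) : Negl g := by
  rwa [show g = f from funext fun i => (h i).symm]

/-- A null set of a fibre. -/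
def NullN (X : Set ℕ) : Prop := Negl (X.indicator 1)

lemma NullN.subset {X Y : Set ℕ} (hY : NullN Y) (h : X ⊆ Y) : NullN X := by
  intro k
  refine Filter.mem_of_superset (hY k) fun e (he : (k : ℝ) * |_| ≤ _) => ?_
  show (k : ℝ) * |_| ≤ _
  refine le_trans ?_ he
  have h0 : ∀ (Z : Set ℕ) (i : ℕ), 0 ≤ Z.indicator (1 : ℕ → ℝ) i := fun Z i =>
    indicator_nonneg (fun _ _ => zero_le_one) i
  rw [abs_of_nonneg (Finset.sum_nonneg fun i _ => h0 X i),
    abs_of_nonneg (Finset.sum_nonneg fun i _ => h0 Y i)]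
  exact mul_le_mul_of_nonneg_left (Finset.sum_le_sum fun i _ =>
    indicator_le_indicator_of_subset h (fun _ => zero_le_one) i) (Nat.cast_nonneg k)

lemma NullN.union {X Y : Set ℕ} (hX : NullN X) (hY : NullN Y) : NullN (X ∪ Y) := by
  intro k
  refine Filter.mem_of_superset ((hX.add hY) k) fun e (he : (k : ℝ) * |_| ≤ _) => ?_
  show (k : ℝ) * |_| ≤ _
  refine le_trans ?_ he
  have h0 : ∀ (Z : Set ℕ) (i : ℕ), 0 ≤ Z.indicator (1 : ℕ → ℝ) i := fun Z i =>
    indicator_nonneg (fun _ _ => zero_le_one) i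
  rw [abs_of_nonneg (Finset.sum_nonneg fun i _ => h0 _ i),
    abs_of_nonneg (Finset.sum_nonneg fun i _ => add_nonneg (h0 X i) (h0 Y i))]
  refine mul_le_mul_of_nonneg_left (Finset.sum_le_sum fun i _ => ?_) (Nat.cast_nonneg k)
  by_cases hx : i ∈ X <;> by_cases hy : i ∈ Y <;> simp [Set.indicator, hx, hy]

lemma NullN.of_mem_U {X : Set ℕ} {E : Set ℕ} (hE : E ∈ U) (h : ∀ e ∈ E, ∀ i ∈ blk e, i ∉ X) :
    NullN X := fun k => by
  refine Filter.mem_of_superset hE fun e he => ?_
  simp only [mem_ofPred_eq]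
  rw [Finset.sum_eq_zero fun i hi => indicator_of_notMem (h e he i hi) _, abs_zero, mul_zero]
  positivity

lemma nullN_of_finite {X : Set ℕ} (h : X.Finite) : NullN X := by
  obtain ⟨M, hM⟩ := h.bddAbove
  refine NullN.of_mem_U (eventually_mem_U (eventually_gt_atTop (M + 1))) fun e he i hi hX => ?_
  have h1 := hM hX
  have h2 := Nat.lt_two_pow_self (n := e)
  simp only [blk, Finset.mem_Ico] at hi
  simp only [mem_ofPred_eq] at he
  omega

lemma not_nullN_univ : ¬ NullN (univ : Set ℕ) := by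
  intro h
  obtain ⟨e, he⟩ := Ultrafilter.nonempty_of_mem (h 2)
  simp [Finset.sum_const, card_blk] at he

/-- The sets with null complement. -/
def nullFilter : Filter ℕ where
  sets := {X | NullN Xᶜ}
  univ_sets := by simpa using nullN_of_finite finite_empty
  sets_of_superset hX h := NullN.subset hX (compl_subset_compl.2 h)
  inter_sets hX hY := by simpa [compl_inter] using NullN.union hX hY

instance : nullFilter.NeBot := by
  refine ⟨fun h => not_nullN_univ ?_⟩
  have : (∅ : Set ℕ) ∈ nullFilter := by rw [h]; trivial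
  have h' : NullN (∅ : Set ℕ)ᶜ := this
  simpa using h'

/-- The ultrafilter used on every fibre; it contains no null set. -/
noncomputable def V : Ultrafilter ℕ := Ultrafilter.of nullFilter

lemma NullN.notMem_V {X : Set ℕ} (h : NullN X) : X ∉ V := by
  refine Ultrafilter.compl_mem_iff_notMem.1 (Ultrafilter.of_le nullFilter ?_)
  show NullN Xᶜᶜ
  rwa [compl_compl]

/-! ### Null sets of elements and the coarse preorder -/

/-- Sets null in every fibre. -/
def Null (S : Set Loc) : Prop := ∀ c n, NullN (fib S c n)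

lemma Null.subset {S T : Set Loc} (h : Null T) (hST : S ⊆ T) : Null S :=
  fun c n => (h c n).subset fun _ hi => hST hi

lemma Null.union {S T : Set Loc} (h : Null S) (h' : Null T) : Null (S ∪ T) :=
  fun c n => (h c n).union (h' c n)

lemma null_of_finite {S : Set Loc} (h : S.Finite) : Null S :=
  fun c n => nullN_of_finite <| (h.image fun p => p.2.2).subset fun i hi => ⟨(c, n, i), hi, rfl⟩

/-- Inclusion modulo null sets. -/
def Le (S T : Set Loc) : Prop := Null (S \ T)

lemma le_of_subset {S T : Set Loc} (h : S ⊆ T) : Le S T :=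
  (null_of_finite finite_empty).subset fun _ hp => (hp.2 (h hp.1)).elim

lemma Le.trans {A B C : Set Loc} (h₁ : Le A B) (h₂ : Le B C) : Le A C :=
  (h₁.union h₂).subset fun p hp => by
    by_cases hb : p ∈ B
    · exact Or.inr ⟨hb, hp.2⟩
    · exact Or.inl ⟨hp.1, hb⟩

/-- The cells at which a set is large. -/
def qv (S : Set Loc) (c : Bool) : Set ℕ := {n | fib S c n ∈ V}

lemma qv_mono {S T : Set Loc} (h : Le S T) (c : Bool) : qv S c ⊆ qv T c := by
  intro n hn
  have : fib (S \ T) c n ∪ fib T c n ∈ V := by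
    refine Filter.mem_of_superset hn fun i hi => ?_
    by_cases hT : (c, n, i) ∈ T
    · exact Or.inr hT
    · exact Or.inl ⟨hi, hT⟩
  exact (Ultrafilter.union_mem_iff.1 this).resolve_left (h c n).notMem_V

/-! ### Stages and counts -/

/-- The stage at which an element appears. -/
def stage (p : Loc) : ℕ := max p.2.1 (blkOf p.2.2)

/-- The finite set of elements appearing before stage `j`. -/
def Fin' (j : ℕ) : Set Loc := {p | stage p < j}

lemma finite_Fin' (j : ℕ) : (Fin' j).Finite := by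
  refine (((finite_univ (α := Bool)).prod ((finite_Iio j).prod (finite_Iio (2 ^ j))))).subset ?_
  rintro ⟨c, n, i⟩ hp
  simp only [Fin', stage, mem_ofPred_eq, max_lt_iff] at hp
  refine ⟨trivial, hp.1, ?_⟩
  have := (Nat.log_lt_iff_lt_pow one_lt_two (Nat.succ_ne_zero i)).1 hp.2
  show i < 2 ^ j
  omega

/-- The number of elements of `S` before stage `j`. -/
noncomputable def cnt (S : Set Loc) (j : ℕ) : ℕ := (S ∩ Fin' j).ncard

lemma cnt_mono {S T : Set Loc} (h : S ⊆ T) (j : ℕ) : cnt S j ≤ cnt T j :=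
  ncard_le_ncard (inter_subset_inter_left _ h) ((finite_Fin' j).subset inter_subset_right)

lemma cnt_le_stage (S : Set Loc) (j : ℕ) : cnt S j ≤ (Fin' j).ncard :=
  ncard_le_ncard inter_subset_right (finite_Fin' j)

lemma cnt_mono_stage (S : Set Loc) {i j : ℕ} (h : i ≤ j) : cnt S i ≤ cnt S j :=
  ncard_le_ncard (inter_subset_inter_right _ fun _ hp => lt_of_lt_of_le hp h)
    ((finite_Fin' j).subset inter_subset_right)

lemma cnt_add_diff {S T : Set Loc} (h : S ⊆ T) (j : ℕ) : cnt S j + cnt (T \ S) j = cnt T j := by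
  rw [cnt, cnt, cnt, ← ncard_union_eq
    (disjoint_left.2 fun p hp hp' => hp'.1.2 hp.1)
    ((finite_Fin' j).subset inter_subset_right) ((finite_Fin' j).subset inter_subset_right),
    ← union_inter_distrib_right, union_sdiff_cancel h]

lemma cnt_union_le (S T : Set Loc) (j : ℕ) : cnt (S ∪ T) j ≤ cnt S j + cnt T j := by
  rw [cnt, union_inter_distrib_right]
  exact ncard_union_le _ _

lemma eventually_cnt_of_finite {S : Set Loc} (h : S.Finite) :
    ∀ᶠ j in atTop, cnt S j = S.ncard := by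
  obtain ⟨M, hM⟩ := (h.image stage).bddAbove
  filter_upwards [eventually_gt_atTop M] with j hj
  have : S ⊆ Fin' j := fun p hp => lt_of_le_of_lt (hM ⟨p, hp, rfl⟩) hj
  rw [cnt, inter_eq_left.2 this]

lemma eventually_le_cnt {S : Set Loc} (h : S.Infinite) (k : ℕ) :
    ∀ᶠ j in atTop, k ≤ cnt S j := by
  obtain ⟨E, hE, hcard⟩ := h.exists_subset_card_eq k
  filter_upwards [eventually_cnt_of_finite E.finite_toSet] with j hj
  have := cnt_mono hE j
  rw [hj, ncard_coe_finset, hcard] at this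
  exact this

/-- The elements with stage in a set. -/
def win (K : Set ℕ) : Set Loc := {p | stage p ∈ K}

lemma null_win {K : Set ℕ} (hK : K ∉ U) : Null (win K) := by
  intro c n
  have hE : Kᶜ ∩ {e | n ≤ e} ∈ U :=
    Filter.inter_mem (compl_mem_U.2 hK) (eventually_mem_U (eventually_ge_atTop n))
  refine NullN.of_mem_U hE fun e he i hi hp => he.1 ?_
  have : stage (c, n, i) ∈ K := hp
  rwa [show stage (c, n, i) = e by simp [stage, blkOf_eq hi]; exact he.2] at this

/-- Well separated windows whose union is null. -/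
lemma exists_windows {P : ℕ → ℕ → Prop} (N : ℕ) (h : ∀ a ≥ N, ∃ b, a < b ∧ P a b) :
    ∃ a b : ℕ → ℕ, (∀ k, N ≤ a k) ∧ (∀ k, a k < b k) ∧ (∀ k, b k ≤ a (k + 1)) ∧
      (∀ k, P (a k) (b k)) ∧ Null (win {e | ∃ k, a k ≤ e ∧ e < b k}) := by
  choose nxt hlt hP using h
  let j : ℕ → {x // N ≤ x} := fun k =>
    Nat.rec ⟨N, le_rfl⟩ (fun _ x => ⟨nxt x.1 x.2, x.2.trans (hlt x.1 x.2).le⟩) k
  have hj : ∀ k, (j k).1 < (j (k + 1)).1 := fun k => hlt _ (j k).2
  have hmono : StrictMono fun k => (j k).1 := strictMono_nat_of_lt_succ hj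
  have hjP : ∀ k, P (j k).1 (j (k + 1)).1 := fun k => hP _ (j k).2
  let K : ℕ → Set ℕ := fun p => {e | ∃ k, (j (2 * k + p)).1 ≤ e ∧ e < (j (2 * k + p + 1)).1}
  obtain ⟨p, hp⟩ : ∃ p, K p ∉ U := by
    by_contra hh
    push Not at hh
    obtain ⟨e, ⟨k, hk1, hk2⟩, l, hl1, hl2⟩ :=
      Ultrafilter.nonempty_of_mem (Filter.inter_mem (hh 0) (hh 1))
    rcases lt_trichotomy (2 * k) (2 * l + 1) with h | h | h
    · have := hmono.monotone (show 2 * k + 0 + 1 ≤ 2 * l + 1 by omega)
      omega
    · omega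
    · have := hmono.monotone (show 2 * l + 1 + 1 ≤ 2 * k + 0 by omega)
      omega
  exact ⟨fun k => (j (2 * k + p)).1, fun k => (j (2 * k + p + 1)).1, fun k => (j _).2,
    fun k => hj _, fun k => hmono.monotone (show 2 * k + p + 1 ≤ 2 * (k + 1) + p by omega),
    fun k => hjP _, null_win hp⟩

end Vale.Agent.P068.ZFC
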