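import Vale.Agent.P068.ZFC.Gap
import Mathlib.Combinatorics.Matroid.IndepAxioms

open Set Filter Cardinal

namespace Vale.Agent.P068.ZFC

open Vale.Agent.P068 (Loc Sep)

variable (σ : Sep)

/-- The tasks: pairs of sets. -/
abbrev Task : Type := Set Loc × Set Loc

/-- The finitely many classes added for a task. -/
def StepSpec (𝒦 : Set Cls) (t : Task) (N : Set Cls) : Prop :=
  Good σ (𝒦 ∪ N) ∧ Stable σ (𝒦 ∪ N) t.1 ∧ Stable σ (𝒦 ∪ N) t.2 ∧
    (t.1 ⊆ t.2 → Ind σ (𝒦 ∪ N) t.1 → Spn σ (𝒦 ∪ N) t.2 →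
      ∃ B, t.1 ⊆ B ∧ B ⊆ t.2 ∧ Ind σ (𝒦 ∪ N) B ∧ Spn σ (𝒦 ∪ N) B ∧ Fz (𝒦 ∪ N) B)

variable {σ}

lemma Stable.mono {𝒦 𝒦' : Set Cls} {S : Set Loc} (h : Stable σ 𝒦 S) (hs : 𝒦 ⊆ 𝒦') :
    Stable σ 𝒦' S := by
  rcases h with h | h | h
  · exact Or.inl h
  · exact Or.inr (Or.inl h)
  · exact Or.inr (Or.inr (h.mono hs))

lemma lt_continuum_union {𝒦 N : Set Cls} (hc : #𝒦 < 𝔠) (hN : N.Finite) :
    #(𝒦 ∪ N : Set Cls) < 𝔠 :=
  (mk_union_le _ _).trans_lt
    (add_lt_of_lt aleph0_le_continuum hc (hN.lt_aleph0.trans_le aleph0_le_continuum))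

lemma exists_step {𝒦 : Set Cls} (hg : Good σ 𝒦) (hc : #𝒦 < 𝔠) (t : Task) :
    ∃ N : Set Cls, N.Finite ∧ StepSpec σ 𝒦 t N := by
  obtain ⟨N₁, hN₁, hg₁, hs₁⟩ := exists_stable hg t.1
  obtain ⟨N₂, hN₂, hg₂, hs₂⟩ := exists_stable hg₁ t.2
  have hs₁' := hs₁.mono (subset_union_left (t := N₂))
  by_cases h : t.1 ⊆ t.2 ∧ Ind σ (𝒦 ∪ N₁ ∪ N₂) t.1 ∧ Spn σ (𝒦 ∪ N₁ ∪ N₂) t.2
  · obtain ⟨N₃, hN₃, hg₃, hB⟩ :=
      exists_task hg₂ (lt_continuum_union (lt_continuum_union hc hN₁) hN₂) h.1 hs₁' hs₂ h.2.1 h.2.2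
    have e : 𝒦 ∪ N₁ ∪ N₂ ∪ N₃ = 𝒦 ∪ (N₁ ∪ N₂ ∪ N₃) := by simp only [union_assoc]
    rw [e] at hg₃ hB
    refine ⟨N₁ ∪ N₂ ∪ N₃, (hN₁.union hN₂).union hN₃, hg₃, ?_, ?_, fun _ _ _ => hB⟩ <;> rw [← e]
    · exact hs₁'.mono subset_union_left
    · exact hs₂.mono subset_union_left
  · refine ⟨N₁ ∪ N₂, hN₁.union hN₂, ?_⟩
    rw [StepSpec, ← union_assoc]
    exact ⟨hg₂, hs₁', hs₂, fun a b c => absurd ⟨a, b, c⟩ h⟩

lemma exists_wellOrder : ∃ (r : Task → Task → Prop) (_ : IsWellOrder Task r),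
    ∀ t, #{s | r s t} < 𝔠 := by
  obtain ⟨r, wo, hr⟩ := Cardinal.exists_ord_eq Task
  refine ⟨r, wo, fun t => ?_⟩
  have hT : #Task = 𝔠 := by
    simp [Task, Loc]
  have h1 := Ordinal.typein_lt_type r t
  rw [← hr, Cardinal.lt_ord, Ordinal.card_typein, hT] at h1
  exact h1

/-- The well-order of the tasks. -/
noncomputable def tlt : Task → Task → Prop := exists_wellOrder.choose

instance : IsWellOrder Task tlt := exists_wellOrder.choose_spec.choose

lemma mk_tlt_lt (t : Task) : #{s | tlt s t} < 𝔠 := exists_wellOrder.choose_spec.choose_spec t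

open Classical in
/-- The classes added at one task, given what came before. -/
noncomputable def stepN (σ : Sep) (𝒦 : Set Cls) (t : Task) : Set Cls :=
  if h : Good σ 𝒦 ∧ #𝒦 < 𝔠 then (exists_step h.1 h.2 t).choose else ∅

lemma stepN_finite (σ : Sep) (𝒦 : Set Cls) (t : Task) : (stepN σ 𝒦 t).Finite := by
  unfold stepN
  split_ifs with h
  · exact (exists_step h.1 h.2 t).choose_spec.1
  · exact finite_empty

/-- The classes added at each task. -/
noncomputable def added (σ : Sep) : Task → Set Cls :=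
  (IsWellFounded.wf (r := tlt)).fix fun t ih => stepN σ (⋃ s, ⋃ h : tlt s t, ih s h) t

/-- The classes present before a task. -/
noncomputable def acc (σ : Sep) (t : Task) : Set Cls := ⋃ s, ⋃ _ : tlt s t, added σ s

lemma added_eq (σ : Sep) (t : Task) : added σ t = stepN σ (acc σ t) t := by
  rw [added, WellFounded.fix_eq]
  rfl

lemma acc_mono {s t : Task} (h : tlt s t) : acc σ s ⊆ acc σ t :=
  iUnion₂_subset fun u hu => subset_iUnion₂ (s := fun u _ => added σ u) u (_root_.trans hu h)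

lemma mk_acc_lt (σ : Sep) (t : Task) : #(acc σ t) < 𝔠 := by
  have : acc σ t = ⋃ s ∈ {s | tlt s t}, added σ s := rfl
  rw [this]
  refine (mk_biUnion_le _ _).trans_lt (mul_lt_of_lt aleph0_le_continuum (mk_tlt_lt t) ?_)
  refine lt_of_le_of_lt (ciSup_le' fun s => ?_) aleph0_lt_continuum
  rw [added_eq]
  exact (stepN_finite σ _ _).lt_aleph0.le

lemma good_iUnion {ι : Type*} (p : ι → Prop) (K : ι → Set Cls) (hK : ∀ i, p i → Good σ (K i))
    (hd : ∀ i j, p i → p j → ∃ k, p k ∧ K i ⊆ K k ∧ K j ⊆ K k) :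
    Good σ (⋃ i, ⋃ _ : p i, K i) where
  mid x hx := by
    obtain ⟨i, hi, hx⟩ := mem_iUnion₂.1 hx
    exact (hK i hi).mid x hx
  anti x hx y hy h n := by
    obtain ⟨i, hi, hx⟩ := mem_iUnion₂.1 hx
    obtain ⟨j, hj, hy⟩ := mem_iUnion₂.1 hy
    obtain ⟨k, hk, hik, hjk⟩ := hd i j hi hj
    exact (hK k hk).anti x (hik hx) y (hjk hy) h n

lemma acc_union_mono {s t : Task} (h : tlt s t) : acc σ s ∪ added σ s ⊆ acc σ t :=
  union_subset (acc_mono h) (subset_iUnion₂ (s := fun u _ => added σ u) s h)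

lemma directed_acc (σ : Sep) (i j : Task) :
    ∃ k, (k = i ∨ k = j) ∧ acc σ i ∪ added σ i ⊆ acc σ k ∪ added σ k ∧
      acc σ j ∪ added σ j ⊆ acc σ k ∪ added σ k := by
  rcases trichotomous_of tlt i j with h | rfl | h
  · exact ⟨j, Or.inr rfl, (acc_union_mono h).trans subset_union_left, subset_rfl⟩
  · exact ⟨i, Or.inl rfl, subset_rfl, subset_rfl⟩
  · exact ⟨i, Or.inl rfl, subset_rfl, (acc_union_mono h).trans subset_union_left⟩

lemma spec (σ : Sep) (t : Task) : StepSpec σ (acc σ t) t (added σ t) := by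
  induction t using (IsWellFounded.wf (r := tlt)).induction with
  | _ t ih =>
    have hg : Good σ (acc σ t) := by
      have e : acc σ t = ⋃ s, ⋃ _ : tlt s t, (acc σ s ∪ added σ s) := by
        refine subset_antisymm (iUnion₂_mono fun s _ => subset_union_right)
          (iUnion₂_subset fun s hs => acc_union_mono hs)
      rw [e]
      refine good_iUnion _ _ (fun s hs => (ih s hs).1) fun i j hi hj => ?_
      obtain ⟨k, hk, h1, h2⟩ := directed_acc σ i j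
      exact ⟨k, by rcases hk with rfl | rfl <;> assumption, h1, h2⟩
    rw [added_eq, stepN, dif_pos ⟨hg, mk_acc_lt σ t⟩]
    exact (exists_step hg (mk_acc_lt σ t) t).choose_spec.2

/-- All classes. -/
noncomputable def allCls (σ : Sep) : Set Cls := ⋃ t, ⋃ _ : True, (acc σ t ∪ added σ t)

lemma good_all (σ : Sep) : Good σ (allCls σ) :=
  good_iUnion _ _ (fun t _ => (spec σ t).1) fun i j _ _ => by
    obtain ⟨k, -, h⟩ := directed_acc σ i j
    exact ⟨k, trivial, h⟩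

lemma stable_all (σ : Sep) (S : Set Loc) : Stable σ (allCls σ) S :=
  (spec σ (S, S)).2.1.mono (subset_iUnion₂ (s := fun t _ => acc σ t ∪ added σ t) (S, S) trivial)

/-- The interval property of the final rule. -/
lemma exists_base (σ : Sep) {I X : Set Loc} (hIX : I ⊆ X) (hI : Ind σ (allCls σ) I)
    (hX : Spn σ (allCls σ) X) :
    ∃ B, I ⊆ B ∧ B ⊆ X ∧ Ind σ (allCls σ) B ∧ Spn σ (allCls σ) B := by
  obtain ⟨hg, hsI, hsX, hB⟩ := spec σ (I, X)
  have hsub : acc σ (I, X) ∪ added σ (I, X) ⊆ allCls σ :=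
    subset_iUnion₂ (s := fun t _ => acc σ t ∪ added σ t) (I, X) trivial
  obtain ⟨B, hIB, hBX, hBi, hBs, hBz⟩ :=
    hB hIX ((ind_congr hg (good_all σ) hsub hsI).1 hI) ((spn_congr hg (good_all σ) hsub hsX).1 hX)
  exact ⟨B, hIB, hBX, (ind_congr hg (good_all σ) hsub (Or.inr (Or.inr hBz))).2 hBi,
    (spn_congr hg (good_all σ) hsub (Or.inr (Or.inr hBz))).2 hBs⟩

lemma maximal_ind_iff {I : Set Loc} :
    Maximal (Ind σ (allCls σ)) I ↔ Ind σ (allCls σ) I ∧ Spn σ (allCls σ) I := by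
  constructor
  · intro hmax
    obtain ⟨B, hIB, -, hBi, hBs⟩ := exists_base σ (subset_univ I) hmax.prop
      ⟨not_DS_FS DS_univ, Or.inl DS_univ⟩
    rw [subset_antisymm hIB (hmax.2 hBi hIB)]
    exact ⟨hBi, hBs⟩
  · rintro ⟨hI, hs⟩
    refine ⟨hI, fun J hJ hIJ => ?_⟩
    by_contra hJI
    exact not_ind_of_ssubset hs ⟨hIJ, hJI⟩ hJ

/-- The matroid of a separation, in ZFC. -/
noncomputable def gadget (σ : Sep) : IndepMatroid Loc where
  E := univ
  Indep := Ind σ (allCls σ)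
  indep_empty := ⟨fun h => not_DS_FS h FS_empty, Or.inl FS_empty⟩
  indep_subset := fun _ _ hJ hIJ => hJ.subset hIJ
  indep_aug := by
    intro I B hI hnmax hB
    have hnot : ¬ Spn σ (allCls σ) I := fun hs => hnmax (maximal_ind_iff.2 ⟨hI, hs⟩)
    obtain ⟨e, he⟩ : (B \ I).Nonempty := by
      by_contra h
      have hBI : B ⊆ I := fun x hx => by_contra fun hxI => h ⟨x, hx, hxI⟩
      exact hnmax (subset_antisymm hBI (hB.2 hI hBI) ▸ hB)
    exact ⟨e, he, ind_insert e hI hnot⟩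
  indep_maximal := by
    intro X _ I hI hIX
    by_cases hX : Ind σ (allCls σ) X
    · exact ⟨X, hIX, ⟨hX, subset_rfl⟩, fun K hK _ => hK.2⟩
    obtain ⟨B, hIB, hBX, hBi, hBs⟩ :=
      exists_base σ hIX hI ((ind_or_spn σ _ X).resolve_left hX)
    refine ⟨B, hIB, ⟨hBi, hBX⟩, fun K hK hBK => ?_⟩
    by_contra h
    exact not_ind_of_ssubset hBs ⟨hBK, h⟩ hK.1
  subset_ground := fun I _ => subset_univ I

end Vale.Agent.P068.ZFC
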