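import Vale.Agent.P068.ZFC.Block

open Set Filter

namespace Vale.Agent.P068.ZFC

open Vale.Agent.P068 (Loc U)

/-- A subset of given size taken from the top, in order of stages. -/
lemma exists_top (W : Finset Loc) {Δ : ℕ} (h : Δ ≤ W.card) :
    ∃ S ⊆ W, S.card = Δ ∧ ∀ x ∈ S, ∀ y ∈ W, stage x < stage y → y ∈ S := by
  classical
  induction Δ with
  | zero => exact ⟨∅, Finset.empty_subset _, rfl, by simp⟩
  | succ Δ ih =>
    obtain ⟨S, hS, hcard, hlate⟩ := ih (by omega)
    have hne : (W \ S).Nonempty := by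
      rw [← Finset.card_pos, Finset.card_sdiff_of_subset hS]
      omega
    obtain ⟨p, hp, hmax⟩ := Finset.exists_max_image (W \ S) stage hne
    rw [Finset.mem_sdiff] at hp
    refine ⟨insert p S, Finset.insert_subset hp.1 hS,
      by rw [Finset.card_insert_of_notMem hp.2, hcard], ?_⟩
    intro x hx y hy hxy
    by_contra hyS
    rw [Finset.mem_insert] at hx hyS
    push Not at hyS
    rcases hx with rfl | hx
    · exact absurd (hmax y (Finset.mem_sdiff.2 ⟨hy, hyS.2⟩)) (not_le.2 hxy)
    · exact hyS.2 (hlate x hx y hy hxy)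

/-- Checkpoints at which the excess over `m` is large and `m` is a later minimum. -/
lemma exists_check {m G : ℕ → ℕ} (F : ℕ → ℕ) (N : ℕ) (hG : Monotone G)
    (h : ∀ K, ∃ᶠ n in atTop, m n + K < G n) :
    ∀ a ≥ N, ∃ b, a < b ∧ F a + m b ≤ G b ∧ (∀ n ≥ b, m b ≤ m n) ∧
      ∀ n, N ≤ n → n < b → G n + m b ≤ G b + m n ∨ m b ≤ m n := by
  classical
  intro a _
  set K := F a + G a with hK
  have hex : ∃ i, N ≤ i ∧ m i + K < G i := by
    obtain ⟨i, hi, hi'⟩ := ((h K).and_eventually (eventually_ge_atTop N)).exists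
    exact ⟨i, hi', hi⟩
  obtain ⟨i, ⟨hiN, hiK⟩, hleast⟩ :
      ∃ i, (N ≤ i ∧ m i + K < G i) ∧ ∀ n < i, ¬ (N ≤ n ∧ m n + K < G n) :=
    ⟨_, Nat.find_spec hex, fun n hn => Nat.find_min hex hn⟩
  have hai : a < i := by
    by_contra hle
    have := hG (not_lt.1 hle)
    omega
  have hmin : ∃ v, ∃ n ≥ i, m n = v := ⟨m i, i, le_rfl, rfl⟩
  obtain ⟨b, hib, hb⟩ := Nat.find_spec hmin
  have hle : ∀ n ≥ i, m b ≤ m n := fun n hn => hb ▸ Nat.find_min' hmin ⟨n, hn, rfl⟩
  have h1 := hle i le_rfl
  have h2 := hG hib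
  refine ⟨b, by omega, by omega, fun n hn => hle n (by omega), fun n hnN hnb => ?_⟩
  by_cases hn : i ≤ n
  · exact Or.inr (hle n hn)
  · have h3 := hleast n (by omega)
    refine Or.inl ?_
    have h4 : G n ≤ m n + K := by
      by_contra h5
      exact h3 ⟨hnN, by omega⟩
    omega

lemma cnt_finset_biUnion {S : ℕ → Finset Loc} {a b : ℕ → ℕ}
    (hS : ∀ k, ∀ p ∈ S k, a k ≤ stage p ∧ stage p < b k) (hab : ∀ k, a k < b k)
    (hba : ∀ k, b k ≤ a (k + 1)) {n k : ℕ} (hlow : ∀ j < k, b j ≤ n) (hn : n ≤ b k) :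
    cnt (⋃ j, (S j : Set Loc)) n =
      (∑ j ∈ Finset.range k, (S j).card) + ((S k).filter fun p => stage p < n).card := by
  classical
  have hmono : StrictMono b := strictMono_nat_of_lt_succ fun j => (hba j).trans_lt (hab (j + 1))
  have hsep : ∀ i j, i < j → b i ≤ a j := by
    intro i j hij
    obtain ⟨l, rfl⟩ : ∃ l, j = l + 1 := ⟨j - 1, by omega⟩
    exact (hmono.monotone (show i ≤ l by omega)).trans (hba l)
  have hdisj : ∀ i j, i < j → ∀ p ∈ S i, p ∉ S j := fun i j hij p hpi hpj => by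
    have := (hS i p hpi).2
    have := (hS j p hpj).1
    have := hsep i j hij
    omega
  have hset : (⋃ j, (S j : Set Loc)) ∩ Fin' n =
      (((Finset.range k).biUnion S ∪ (S k).filter fun p => stage p < n : Finset Loc) : Set Loc) := by
    ext p
    simp only [mem_inter_iff, mem_iUnion, Finset.mem_coe, Fin', mem_ofPred_eq, Finset.coe_union,
      Set.mem_union, Finset.coe_biUnion, Finset.mem_range, Finset.coe_filter, exists_prop]
    constructor
    · rintro ⟨⟨j, hj⟩, hp⟩
      rcases lt_trichotomy j k with h | rfl | h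
      · exact Or.inl ⟨j, h, hj⟩
      · exact Or.inr ⟨hj, hp⟩
      · have := hsep k j h
        have := (hS j p hj).1
        omega
    · rintro (⟨j, hjk, hj⟩ | ⟨hj, hp⟩)
      · exact ⟨⟨j, hj⟩, (hS j p hj).2.trans_le (hlow j hjk)⟩
      · exact ⟨⟨k, hj⟩, hp⟩
  rw [cnt, hset, ncard_coe_finset, Finset.card_union_of_disjoint, Finset.card_biUnion]
  · intro i _ j _ hij
    refine Finset.disjoint_left.2 fun p hpi hpj => ?_
    rcases lt_or_gt_of_ne hij with h | h
    · exact hdisj i j h p hpi hpj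
    · exact hdisj j i h p hpj hpi
  · refine Finset.disjoint_left.2 fun p hp hp' => ?_
    obtain ⟨j, hj, hpj⟩ := Finset.mem_biUnion.1 hp
    exact hdisj j k (Finset.mem_range.1 hj) p hpj (Finset.mem_filter.1 hp').1

/-- Removing a null set from `X`, not below `I`, to bring its count down to `w`. -/
lemma exists_trim {I X : Set Loc} (hIX : I ⊆ X) (w : ℕ → ℕ)
    (h1 : ∀ k, ∀ᶠ n in atTop, w n + k < cnt X n)
    (h2 : ∀ K, ∃ᶠ n in atTop, cnt I n + K ≤ w n) :
    ∃ B, I ⊆ B ∧ B ⊆ X ∧ Null (X \ B) ∧ (∀ᶠ n in atTop, w n ≤ cnt B n) ∧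
      ∃ᶠ n in atTop, cnt B n ≤ w n := by
  classical
  obtain ⟨N, hN⟩ := eventually_atTop.1 (h1 0)
  let m : ℕ → ℕ := fun n => cnt X n - w n
  let G : ℕ → ℕ := fun n => cnt (X \ I) n
  have hG : Monotone G := fun i j h => cnt_mono_stage _ h
  have hfreq : ∀ K, ∃ᶠ n in atTop, m n + K < G n := by
    intro K
    refine ((h2 (K + 1)).and_eventually (eventually_ge_atTop N)).mono fun n hn => ?_
    have := cnt_add_diff hIX n
    have := hN n hn.2
    simp only [m, G]
    omega
  obtain ⟨a, b, haN, hab, hba, hP, hnull⟩ :=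
    exists_windows N (exists_check (fun a => (Fin' a).ncard) N hG hfreq)
  have hmono : StrictMono b := strictMono_nat_of_lt_succ fun j => (hba j).trans_lt (hab (j + 1))
  let Wd : ℕ → Finset Loc := fun k =>
    ((finite_Fin' (b k)).subset (inter_subset_right :
      ((X \ I) ∩ {p | a k ≤ stage p}) ∩ Fin' (b k) ⊆ Fin' (b k))).toFinset
  have hWd : ∀ k p, p ∈ Wd k ↔ p ∈ X \ I ∧ a k ≤ stage p ∧ stage p < b k := by
    intro k p
    simp only [Wd, Set.Finite.mem_toFinset, mem_inter_iff, mem_ofPred_eq, Fin']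
    tauto
  have htail : ∀ k n, a k ≤ n → n ≤ b k →
      G (b k) = G n + ((Wd k).filter fun p => ¬ stage p < n).card := by
    intro k n han hnb
    have hset : (((Wd k).filter fun p => ¬ stage p < n : Finset Loc) : Set Loc) =
        ((X \ I) ∩ Fin' (b k)) \ Fin' n := by
      ext p
      simp only [Finset.coe_filter, mem_ofPred_eq, hWd, Set.mem_sdiff, mem_inter_iff, Fin']
      constructor
      · rintro ⟨⟨h, -, h'⟩, h''⟩
        exact ⟨⟨h, h'⟩, h''⟩
      · rintro ⟨⟨h, h'⟩, h''⟩
        exact ⟨⟨h, le_trans han (not_lt.1 h''), h'⟩, h''⟩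
    have h3 := ncard_inter_add_ncard_sdiff_eq_ncard ((X \ I) ∩ Fin' (b k)) (Fin' n)
      ((finite_Fin' _).subset inter_subset_right)
    rw [← hset, ncard_coe_finset, inter_assoc, inter_eq_right.2
      (show Fin' n ⊆ Fin' (b k) from fun p hp => lt_of_lt_of_le hp hnb)] at h3
    exact h3.symm
  have hcard : ∀ k, m (b k) ≤ (Wd k).card := by
    intro k
    have h3 := htail k (a k) le_rfl (hab k).le
    have h4 := Finset.card_filter_le (Wd k) fun p => ¬ stage p < a k
    have h5 := cnt_le_stage (X \ I) (a k)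
    have h6 := (hP k).1
    simp only [G] at h3 h6
    omega
  let prev : ℕ → ℕ := fun k => k.rec 0 fun j _ => m (b j)
  have hprev : ∀ k, prev k ≤ m (b k) := by
    rintro (_ | j)
    · exact Nat.zero_le _
    · exact (hP j).2.1 _ (hmono.monotone (Nat.le_succ j))
  choose S hS hScard hlate using fun k =>
    exists_top (Wd k) (show m (b k) - prev k ≤ (Wd k).card from (Nat.sub_le _ _).trans (hcard k))
  have hsum : ∀ k, ∑ j ∈ Finset.range k, (S j).card = prev k := by
    intro k
    induction k with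
    | zero => rfl
    | succ k ih =>
      rw [Finset.sum_range_succ, ih, hScard]
      have := hprev k
      show _ = m (b k)
      omega
  let R : Set Loc := ⋃ j, (S j : Set Loc)
  have hwin : ∀ k, ∀ p ∈ S k, a k ≤ stage p ∧ stage p < b k := fun k p hp =>
    ((hWd k p).1 (hS k hp)).2
  have hRX : R ⊆ X \ I := by
    intro p hp
    obtain ⟨j, hj⟩ := mem_iUnion.1 hp
    exact ((hWd j p).1 (hS j hj)).1
  have hsub : X \ (X \ R) = R := sdiff_sdiff_cancel_left (hRX.trans sdiff_subset)
  refine ⟨X \ R, fun p hp => ⟨hIX hp, fun h => (hRX h).2 hp⟩, sdiff_subset, ?_, ?_, ?_⟩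
  · rw [hsub]
    refine hnull.subset fun p hp => ?_
    obtain ⟨j, hj⟩ := mem_iUnion.1 hp
    exact ⟨j, hwin j p hj⟩
  · filter_upwards [eventually_ge_atTop N] with n hn
    have hex : ∃ k, n ≤ b k := ⟨n, hmono.id_le n⟩
    obtain ⟨k, hk, hlow⟩ : ∃ k, n ≤ b k ∧ ∀ j < k, b j ≤ n :=
      ⟨_, Nat.find_spec hex, fun j hj => (not_le.1 (Nat.find_min hex hj)).le⟩
    have hD : cnt R n = _ := cnt_finset_biUnion hwin hab hba hlow hk
    rw [hsum] at hD
    have hX := cnt_add_diff (sdiff_subset (s := X) (t := R)) n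
    rw [hsub] at hX
    suffices cnt R n ≤ m n by
      have := hN n hn
      have : m n = cnt X n - w n := rfl
      omega
    have hprevn : prev k ≤ m n := by
      cases k with
      | zero => exact Nat.zero_le _
      | succ j => exact (hP j).2.1 n (hlow j (Nat.lt_succ_self j))
    have hle := Finset.card_filter_le (S k) fun p => stage p < n
    have hSk := hScard k
    have hpk := hprev k
    by_cases hem : ((S k).filter fun p => stage p < n) = ∅
    · rw [hem, Finset.card_empty] at hD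
      change cnt R n ≤ m n
      omega
    obtain ⟨p, hp⟩ := Finset.nonempty_iff_ne_empty.2 hem
    rw [Finset.mem_filter] at hp
    have han : a k ≤ n := by have := (hwin k p hp.1).1; omega
    have heq : (Wd k).filter (fun q => ¬ stage q < n) = (S k).filter fun q => ¬ stage q < n := by
      ext q
      simp only [Finset.mem_filter]
      refine ⟨fun hq => ⟨hlate k p hp.1 q hq.1 (by omega), hq.2⟩, fun hq => ⟨hS k hq.1, hq.2⟩⟩
    have h3 := htail k n han hk
    rw [heq] at h3
    have h4 := Finset.card_filter_add_card_filter_not (s := S k) fun q => stage q < n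
    rcases hk.lt_or_eq with hlt | rfl
    · change cnt R n ≤ m n
      rcases (hP k).2.2 n hn hlt with h5 | h5 <;> omega
    · change cnt R (b k) ≤ m (b k)
      omega
  · rw [frequently_atTop]
    intro n₀
    refine ⟨b (max n₀ N), (le_max_left _ _).trans (hmono.id_le _), ?_⟩
    set k := max n₀ N with hk
    have hD : cnt R (b k) = _ := cnt_finset_biUnion hwin hab hba (n := b k) (k := k)
      (fun j hj => (hmono hj).le) le_rfl
    rw [hsum, Finset.filter_true_of_mem fun p hp => (hwin k p hp).2, hScard] at hD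
    have hX := cnt_add_diff (sdiff_subset (s := X) (t := R)) (b k)
    rw [hsub] at hX
    have : m (b k) = cnt X (b k) - w (b k) := rfl
    have := hprev k
    have := hN (b k) ((le_max_right n₀ N).trans (hmono.id_le _))
    omega

end Vale.Agent.P068.ZFC
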