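import Vale.Agent.P068.ZFC.Step
import Vale.Agent.P068.ZFC.Window

open Set Filter

namespace Vale.Agent.P068.ZFC

open Vale.Agent.P068 (Loc Sep fib U)

variable {σ : Sep}

open Cardinal in
/-- A sign sequence orthogonal to all pieces of `G` cut by the classes. -/
lemma exists_orth_classes {𝒦 : Set Cls} (hc : #𝒦 < 𝔠) (G : Set Loc) :
    ∃ r : ℕ → Bool, ∀ x ∈ 𝒦, ∀ c n,
      (Negl fun i => (fib (G ∩ x.1) c n).indicator 1 i * eps r i) ∧
      (Negl fun i => (fib (G \ x.1) c n).indicator 1 i * eps r i) := by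
  let q : 𝒦 × (Bool × Bool × ℕ) → ℕ → ℝ := fun t =>
    (fib (cond t.2.1 (G ∩ t.1.1.1) (G \ t.1.1.1)) t.2.2.1 t.2.2.2).indicator 1
  have hW : #(range q) < 𝔠 := by
    refine mk_range_le.trans_lt ?_
    rw [mk_prod]
    simp only [Cardinal.lift_id]
    exact mul_lt_of_lt aleph0_le_continuum hc (mk_le_aleph0.trans_lt aleph0_lt_continuum)
  obtain ⟨r, hr⟩ := exists_orth (range q) hW (by
    rintro _ ⟨t, rfl⟩ i
    by_cases h : i ∈ fib (cond t.2.1 (G ∩ t.1.1.1) (G \ t.1.1.1)) t.2.2.1 t.2.2.2 <;>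
      simp [q, h])
  exact ⟨r, fun x hx c n => ⟨hr _ ⟨(⟨x, hx⟩, true, c, n), rfl⟩,
    hr _ ⟨(⟨x, hx⟩, false, c, n), rfl⟩⟩⟩

lemma fib_mem_cases {S A B : Set Loc} {c : Bool} {n : ℕ} (h : fib S c n ∈ V)
    (hs : ∀ i, (c, n, i) ∈ S → (c, n, i) ∈ A ∨ (c, n, i) ∈ B) :
    fib A c n ∈ V ∨ fib B c n ∈ V :=
  Ultrafilter.union_mem_iff.1 (Filter.mem_of_superset h hs)

/-- The new class strictly inside an interval with a gap between the two thresholds. -/
lemma extends_gap {𝒦 : Set Cls} (hg : Good σ 𝒦) (hc : Cardinal.mk 𝒦 < Cardinal.continuum)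
    {I X : Set Loc} (hIX : I ⊆ X) (hI : ¬ DS σ I) (hX : ¬ FS σ X)
    (hV : ∀ k : ℕ, ∃ᶠ n in atTop, ((cnt I n + k : ℕ) : ℕ∞) ≤ Phi 𝒦 I n)
    (W : ℕ → ℕ∞) (c₀ : ℕ) (hWV : ∀ n, W n ≤ Phi 𝒦 I n)
    (hWup : ∀ x ∈ 𝒦, Le X x.1 → ∀ n, x.2 n ≤ W n)
    (hWlow : ∀ᶠ n in atTop, W n ≤ ((cnt I n + c₀ : ℕ) : ℕ∞)) (hinf : (X \ I).Infinite) :
    Extends σ 𝒦 I X := by
  classical
  obtain ⟨E, hEX, hEc⟩ := hinf.exists_subset_card_eq c₀
  have hEnull : Null (E : Set Loc) := null_of_finite E.finite_toSet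
  have hP : ∀ a ≥ 0, ∃ b, a < b ∧
      ((cnt I b + ((Fin' a).ncard + c₀) : ℕ) : ℕ∞) ≤ Phi 𝒦 I b := fun a _ => by
    obtain ⟨b, hb, hab⟩ :=
      ((hV ((Fin' a).ncard + c₀)).and_eventually (eventually_gt_atTop a)).exists
    exact ⟨b, hab, hb⟩
  obtain ⟨a, b, -, hab, hba, hP', hnull⟩ := exists_windows 0 hP
  set K : Set ℕ := {e | ∃ k, a k ≤ e ∧ e < b k} with hK
  set G : Set Loc := (X \ I) \ win K with hG
  obtain ⟨fa, fb, ha0, ha1, hb0, hb1, hD, hF⟩ :=
    σ.between _ _ _ _ (qv_mono (le_of_subset hIX) false) (qv_mono (le_of_subset hIX) true) hI hX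
  let f : Bool → Set ℕ := fun c => cond c fb fa
  have hf0 : ∀ c, qv I c ⊆ f c := fun c => by cases c <;> assumption
  have hf1 : ∀ c, f c ⊆ qv X c := fun c => by cases c <;> assumption
  obtain ⟨r, hr⟩ := exists_orth_classes hc G
  obtain ⟨b0, hb0V⟩ : ∃ b0, piece r b0 ∈ V := by
    by_cases h : piece r true ∈ V
    · exact ⟨true, h⟩
    · refine ⟨false, ?_⟩
      have := Ultrafilter.compl_mem_iff_notMem.2 h
      rwa [compl_piece] at this
  let bb : Bool → ℕ → Bool := fun c n => if n ∈ f c then b0 else !b0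
  let Y : Set Loc := {p | p.2.2 ∈ piece r (bb p.1 p.2.1)}
  let R : Set Loc := (I ∪ (E : Set Loc)) ∪ (G ∩ Y)
  have hIR : I ⊆ R := fun p hp => Or.inl (Or.inl hp)
  have hRX : R ⊆ X := by
    rintro p ((hp | hp) | hp)
    · exact hIX hp
    · exact (hEX hp).1
    · exact hp.1.1.1
  have hqv : ∀ c, qv R c = f c := by
    intro c
    ext n
    constructor
    · intro hn
      by_contra hnf
      have hcases := fib_mem_cases (A := I ∪ (E : Set Loc)) (B := G ∩ Y) hn fun i h => h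
      rcases hcases with h | h
      · rcases fib_mem_cases (A := I) (B := (E : Set Loc)) h fun i h => h with h | h
        · exact hnf (hf0 c h)
        · exact (hEnull c n).notMem_V h
      · have h' : piece r (!b0) ∈ V := Filter.mem_of_superset h fun i hi => by
          have : i ∈ piece r (bb c n) := hi.2
          simpa [bb, hnf] using this
        rw [← compl_piece] at h'
        exact Ultrafilter.compl_mem_iff_notMem.1 h' hb0V
    · intro hn
      by_cases hI' : n ∈ qv I c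
      · exact qv_mono (le_of_subset hIR) c hI'
      · have hG' : fib G c n ∈ V := by
          have h := fib_mem_cases (A := I ∪ win K) (B := G) (hf1 c hn) fun i hi => by
            by_cases hw : (c, n, i) ∈ I ∪ win K
            · exact Or.inl hw
            · exact Or.inr ⟨⟨hi, fun h => hw (Or.inl h)⟩, fun h => hw (Or.inr h)⟩
          rcases h with h | h
          · rcases fib_mem_cases (A := I) (B := win K) h fun i h => h with h | h
            · exact absurd h hI'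
            · exact absurd h (hnull c n).notMem_V
          · exact h
        refine Filter.mem_of_superset (Filter.inter_mem hG' hb0V) fun i hi => Or.inr ⟨hi.1, ?_⟩
        show i ∈ piece r (bb c n)
        simpa [bb, hn] using hi.2
  have hDR : ¬ DS σ R := by simpa [DS, hqv, f] using hD
  have hFR : ¬ FS σ R := by simpa [FS, hqv, f] using hF
  let φ : ℕ → ℕ∞ := fun n => max (W n) (min (cnt R n : ℕ∞) (Phi 𝒦 I n))
  have hφV : ∀ n, φ n ≤ Phi 𝒦 I n := fun n => max_le (hWV n) (min_le_right _ _)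
  -- consistency below
  have hdown : ∀ x ∈ 𝒦, Le x.1 R → ∀ n, φ n ≤ x.2 n := by
    intro x hx hxR n
    have hH : Null (G ∩ x.1) := by
      intro c m
      refine NullN.of_piece (b := !(bb c m)) (hr x hx c m).1 ?_
      refine ((hxR c m).union (hEnull c m)).subset fun i hi => ?_
      by_cases hE' : (c, m, i) ∈ (E : Set Loc)
      · exact Or.inr hE'
      refine Or.inl ⟨hi.1.2, ?_⟩
      rintro ((h | h) | h)
      · exact hi.1.1.1.2 h
      · exact hE' h
      · have h1 : bit' r i = bb c m := h.2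
        have h2 : bit' r i = !(bb c m) := hi.2
        rw [h1] at h2
        cases bb c m <;> simp at h2
    have hxI : Le x.1 I := ((hxR.union hEnull).union hH).subset fun p hp => by
      by_cases hR : p ∈ R
      · rcases hR with (h | h) | h
        · exact absurd h hp.2
        · exact Or.inl (Or.inr h)
        · exact Or.inr ⟨h.1, hp.1⟩
      · exact Or.inl (Or.inl ⟨hp.1, hR⟩)
    exact (hφV n).trans (Phi_le hx hxI n)
  -- consistency above
  have hup : ∀ x ∈ 𝒦, Le R x.1 → ∀ n, x.2 n ≤ φ n := by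
    intro x hx hRx n
    have hH : Null (G \ x.1) := by
      intro c m
      refine NullN.of_piece (b := bb c m) (hr x hx c m).2 ?_
      exact (hRx c m).subset fun i hi => ⟨Or.inr ⟨hi.1.1, hi.2⟩, hi.1.2⟩
    have hXx : Le X x.1 := ((hRx.union hH).union hnull).subset fun p hp => by
      by_cases hI' : p ∈ I
      · exact Or.inl (Or.inl ⟨hIR hI', hp.2⟩)
      by_cases hw : p ∈ win K
      · exact Or.inr hw
      · exact Or.inl (Or.inr ⟨⟨⟨hp.1, hI'⟩, hw⟩, hp.2⟩)
    exact (hWup x hx hXx n).trans (le_max_left _ _)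
  have hg' : Good σ (insert (R, φ) 𝒦) := hg.insert ⟨hDR, hFR⟩ hup hdown
  have hPhi : ∀ n, Phi (insert (R, φ) 𝒦) R n = φ n := fun n =>
    hg'.Phi_eq (x := (R, φ)) (mem_insert _ _) (le_refl' R) (le_refl' R) n
  rw [← union_singleton] at hg' hPhi
  refine ⟨{(R, φ)}, finite_singleton _, hg', R, hIR, hRX, ⟨hDR, Or.inr ?_⟩,
    ⟨hFR, Or.inr ?_⟩, ⟨(R, φ), Or.inr rfl, le_refl' R, le_refl' R⟩⟩
  · have hmono : StrictMono b := strictMono_nat_of_lt_succ fun j => (hba j).trans_lt (hab (j + 1))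
    rw [frequently_atTop]
    intro n₀
    refine ⟨b n₀, hmono.id_le n₀, ?_⟩
    rw [hPhi]
    refine le_trans (le_min le_rfl (le_trans (Nat.cast_le.2 ?_) (hP' n₀))) (le_max_right _ _)
    have h1 : cnt R (b n₀) ≤ cnt (I ∪ (E : Set Loc)) (b n₀) + cnt (G ∩ Y) (b n₀) :=
      cnt_union_le _ _ _
    have h2 : cnt (I ∪ (E : Set Loc)) (b n₀) ≤ cnt I (b n₀) + c₀ := by
      refine (cnt_union_le _ _ _).trans (add_le_add le_rfl ?_)
      rw [← hEc, ← ncard_coe_finset]
      exact ncard_le_ncard inter_subset_left E.finite_toSet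
    have h3 : cnt (G ∩ Y) (b n₀) ≤ (Fin' (a n₀)).ncard := by
      refine ncard_le_ncard (fun p hp => ?_) (finite_Fin' _)
      by_contra hcon
      exact hp.1.1.2 ⟨n₀, not_lt.1 hcon, hp.2⟩
    omega
  · filter_upwards [hWlow, cnt_add_finite (I := I) (E := (E : Set Loc))
      (disjoint_left.2 fun p hp hp' => (hEX hp').2 hp) E.finite_toSet] with n hn hn'
    rw [hPhi]
    refine max_le (hn.trans (Nat.cast_le.2 ?_)) (min_le_left _ _)
    rw [← hEc, ← ncard_coe_finset, ← hn']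
    exact cnt_mono subset_union_left n

/-- Every task can be done by one more class. -/
lemma exists_task {𝒦 : Set Cls} (hg : Good σ 𝒦) (hc : Cardinal.mk 𝒦 < Cardinal.continuum)
    {I X : Set Loc} (hIX : I ⊆ X) (hsI : Stable σ 𝒦 I) (hsX : Stable σ 𝒦 X)
    (hI : Ind σ 𝒦 I) (hX : Spn σ 𝒦 X) : Extends σ 𝒦 I X := by
  classical
  by_cases h1 : Spn σ 𝒦 I
  · exact extends_self hg subset_rfl hIX hI h1 (fz_of_base hsI hI h1)
  by_cases h2 : Ind σ 𝒦 X
  · exact extends_self hg hIX subset_rfl h2 hX (fz_of_base hsX h2 hX)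
  by_cases h3 : ¬ FS σ I ∧ ∃ k : ℕ, ∀ᶠ n in atTop, Phi 𝒦 I n ≤ ((cnt I n + k : ℕ) : ℕ∞)
  · exact extends_low hg hIX hI hsI h1 h2 h3.1 h3.2
  by_cases h4 : ¬ DS σ X ∧ ∃ k : ℕ, ∃ᶠ n in atTop, (cnt X n : ℕ∞) ≤ Phi 𝒦 X n + k
  · exact extends_high hg hIX hX hsX h1 h2 h4.1 h4.2
  have hV : ∀ k : ℕ, ∃ᶠ n in atTop, ((cnt I n + k : ℕ) : ℕ∞) ≤ Phi 𝒦 I n := by
    intro k
    by_cases hF : FS σ I
    · exact Eventually.frequently (Eventually.of_forall fun n => by
        rw [Phi_of_FS hg hF]; exact le_top)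
    · exact (not_eventually.1 fun h => h3 ⟨hF, k, h⟩).mono fun n hn => (not_le.1 hn).le
  have hhi : ¬ DS σ X → ∀ k : ℕ, ∀ᶠ n in atTop, Phi 𝒦 X n + k < (cnt X n : ℕ∞) := fun hD k =>
    (not_frequently.1 fun h => h4 ⟨hD, k, h⟩).mono fun n hn => not_le.1 hn
  by_cases hA : ¬ DS σ X ∧ ∀ K : ℕ, ∃ᶠ n in atTop, ((cnt I n + K : ℕ) : ℕ∞) ≤ Phi 𝒦 X n
  · -- the base lies in the class of `X`
    obtain ⟨hD, hK⟩ := hA
    let w : ℕ → ℕ := fun n => (Phi 𝒦 X n).toNat
    have hw : ∀ᶠ n in atTop, Phi 𝒦 X n = (w n : ℕ∞) := (hhi hD 0).mono fun n hn => by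
      refine (ENat.natCast_toNat fun htop => ?_).symm
      rw [htop] at hn
      simp at hn
    obtain ⟨B, hIB, hBX, hnull, hev, hfr⟩ := exists_trim hIX w
      (fun k => ((hhi hD k).and hw).mono fun n hn => by
        have := hn.1
        rw [hn.2] at this
        exact_mod_cast this)
      (fun K => ((hK K).and_eventually hw).mono fun n hn => by
        have := hn.1
        rw [hn.2] at this
        exact_mod_cast this)
    have hXB : Le X B := hnull
    have hBX' : Le B X := le_of_subset hBX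
    have hPhi : ∀ n, Phi 𝒦 B n = Phi 𝒦 X n := fun n =>
      le_antisymm (Phi_anti 𝒦 hXB n) (Phi_anti 𝒦 hBX' n)
    refine extends_self hg hIB hBX ⟨fun h => hD (h.mono hBX'), Or.inr ?_⟩
      ⟨fun h => hX.1 (h.anti hXB), Or.inr ?_⟩
      (((hsX.resolve_left hD).resolve_left hX.1).congr hXB hBX')
    · refine (hfr.and_eventually hw).mono fun n hn => ?_
      rw [hPhi, hn.2]
      exact Nat.cast_le.2 hn.1
    · filter_upwards [hev, hw] with n hn hn'
      rw [hPhi, hn']
      exact Nat.cast_le.2 hn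
  · -- a thin new class
    let W : ℕ → ℕ∞ := fun n => if DS σ X then 0 else Phi 𝒦 X n
    obtain ⟨c₀, hc₀⟩ : ∃ c₀ : ℕ, ∀ᶠ n in atTop, W n ≤ ((cnt I n + c₀ : ℕ) : ℕ∞) := by
      by_cases hD : DS σ X
      · exact ⟨0, Eventually.of_forall fun n => by simp [W, hD]⟩
      · obtain ⟨K, hK⟩ := not_forall.1 fun h => hA ⟨hD, h⟩
        exact ⟨K, (not_frequently.1 hK).mono fun n hn => by simpa [W, hD] using (not_le.1 hn).le⟩
    refine extends_gap hg hc hIX hI.1 hX.1 hV W c₀ (fun n => ?_) (fun x hx hXx n => ?_) hc₀ ?_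
    · simp only [W]
      split_ifs
      · exact bot_le
      · exact Phi_anti 𝒦 (le_of_subset hIX) n
    · have hD : ¬ DS σ X := fun h => (hg.mid x hx).1 (h.mono hXx)
      simp only [W, if_neg hD]
      exact (hg.Phi_eq hx (le_refl' _) (le_refl' _) n).symm.le.trans (Phi_anti 𝒦 hXx n)
    · intro hfin
      have hX' : X = I ∪ X \ I := (union_sdiff_cancel hIX).symm
      have h₁ : Le X I := by rw [hX']; exact Le.union_finite hfin
      have hD : ¬ DS σ X := fun h => hI.1 (h.mono h₁)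
      have hcn := cnt_add_finite (disjoint_sdiff_right : Disjoint I (X \ I)) hfin
      rw [← hX'] at hcn
      obtain ⟨n, hn1, hn2, hn3⟩ :=
        ((hV (X \ I).ncard).and_eventually ((hhi hD 0).and hcn)).exists
      rw [← hn3] at hn1
      rw [Nat.cast_zero, add_zero] at hn2
      exact absurd (hn1.trans (Phi_anti 𝒦 h₁ n)) (not_le.2 hn2)

end Vale.Agent.P068.ZFC
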