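import Vale.Agent.P068.Graph
import Vale.Agent.P068.ZFC.Build

open Set

namespace Vale.Agent.P068.ZFC

open Vale.Agent.P068 (Loc U fib Vertex Elt mate pairIndep pairMatroid slice sideSep centreSep rho
  rho_anti DSide nonempty_of_mem_U finite_notMem_U compl_mem_U SatisfiesIntersection
  mem_closure_pairMatroid mate_mate)

/-- The separation used at each vertex. -/
noncomputable def sepAt : Vertex → Sep := fun v => v.elim centreSep fun _ => sideSep

/-- The sum of the matroids at the vertices, built in ZFC. -/
noncomputable def vertexMat : Matroid Elt :=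
  Matroid.sum' fun v => (gadget (sepAt v)).matroid

lemma vertexMat_indep (S : Set Elt) :
    vertexMat.Indep S ↔ ∀ v, Ind (sepAt v) (allCls (sepAt v)) (slice S v) := by
  rw [vertexMat, Matroid.sum'_indep_iff]
  rfl

lemma vertexMat_ground : vertexMat.E = univ := by
  ext ⟨v, p⟩
  simp [vertexMat, gadget]

lemma mem_closure_vertexMat {S : Set Elt} {e : Elt} (hS : vertexMat.Indep S)
    (he : e ∈ vertexMat.closure S) :
    e ∈ S ∨ Spn (sepAt e.1) (allCls (sepAt e.1)) (slice S e.1) := by
  classical
  by_contra hh
  push Not at hh
  obtain ⟨v, p⟩ := e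
  refine hh.1 ((hS.mem_closure_iff'.1 he).2 ?_)
  rw [vertexMat_indep] at hS ⊢
  intro w
  by_cases hw : w = v
  · subst hw
    refine (ind_insert p (hS w) hh.2).subset fun q hq => ?_
    rcases hq with hq | hq
    · exact Or.inl (Prod.ext_iff.1 hq).2
    · exact Or.inr hq
  · refine (hS w).subset fun q hq => ?_
    rcases hq with hq | hq
    · exact absurd (Prod.ext_iff.1 hq).1 hw
    · exact hq

lemma fib_compl_mem {A B : Set Loc} {c c' : Bool}
    (h : ∀ x : ℕ × ℕ, (c, x) ∈ A ↔ (c', x) ∉ B) : qv A c = (qv B c')ᶜ := by
  ext n
  have : fib A c n = (fib B c' n)ᶜ := by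
    ext i
    exact h (n, i)
  simp only [qv, mem_compl_iff]
  change fib A c n ∈ V ↔ ¬ fib B c' n ∈ V
  rw [this]
  exact Ultrafilter.compl_mem_iff_notMem

lemma qv_subset_compl {A B : Set Loc} {c c' : Bool}
    (h : ∀ x : ℕ × ℕ, (c, x) ∈ A → (c', x) ∉ B) : qv A c ⊆ (qv B c')ᶜ := by
  intro n hn hn'
  obtain ⟨i, hi⟩ := Ultrafilter.nonempty_of_mem (Filter.inter_mem hn hn')
  exact h (n, i) hi.1 hi.2

/-- With the two separations realised, intersection fails. -/
theorem not_satisfiesIntersection :
    ¬ SatisfiesIntersection vertexMat pairMatroid.matroid := by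
  rintro ⟨J, JM, JN, hM, hN, hJ, hdis, hcov⟩
  have hNJ : pairIndep J := hN
  have hJMi : vertexMat.Indep JM := hM.subset (hJ ▸ subset_union_left)
  have hJNi : pairIndep JN := fun e he h => hNJ e (hJ ▸ Or.inr he) (hJ ▸ Or.inr h)
  have hind : ∀ v, Ind (sepAt v) (allCls (sepAt v)) (slice J v) := (vertexMat_indep J).1 hM
  let W : Vertex → Prop := fun v => Spn (sepAt v) (allCls (sepAt v)) (slice JM v)
  have cover : ∀ e : Elt, e ∈ JM ∨ W e.1 ∨ e ∈ JN ∨ mate e ∈ JN := by
    intro e
    have : e ∈ vertexMat.closure JM ∪ pairMatroid.matroid.closure JN := by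
      rw [hcov, vertexMat_ground]; trivial
    rcases this with h | h
    · rcases mem_closure_vertexMat hJMi h with h | h
      · exact Or.inl h
      · exact Or.inr (Or.inl h)
    · rcases mem_closure_pairMatroid hJNi h with h | h
      · exact Or.inr (Or.inr (Or.inl h))
      · exact Or.inr (Or.inr (Or.inr h))
  by_cases hW : ∃ v, W v
  · -- a tight vertex set
    have sliceEq : ∀ v, W v → slice J v = slice JM v := by
      intro v hv
      have hsub : slice JM v ⊆ slice J v := fun p hp => hJ ▸ Or.inl hp
      by_contra hne
      exact not_ind_of_ssubset hv (hsub.ssubset_of_ne (Ne.symm hne)) (hind v)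
    have next : ∀ e : Elt, W e.1 → e ∈ J → W (mate e).1 := by
      intro e hv he
      have heM : e ∈ JM := by
        have : e.2 ∈ slice J e.1 := he
        rw [sliceEq _ hv] at this
        exact this
      have hm : mate e ∉ J := hNJ e he
      rcases cover (mate e) with h | h | h | h
      · exact absurd (hJ ▸ Or.inl h) hm
      · exact h
      · exact absurd (hJ ▸ Or.inr h) hm
      · rw [mate_mate] at h
        exact absurd heM (fun h' => hdis.le_bot ⟨h', h⟩)
    have hF : ∀ s n, W (some (s, n)) → ¬ FS sideSep (slice J (some (s, n))) := by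
      intro s n hv
      rw [sliceEq _ hv]
      exact hv.1
    have noChain : ∀ o : Ordinal.{0}, ∀ s n, W (some (s, n)) →
        (qv (slice J (some (s, n))) false)ᶜ ∈ U →
        rho (qv (slice J (some (s, n))) false)ᶜ ≠ o := by
      intro o
      induction o using WellFoundedLT.induction with
      | _ o ih =>
        intro s n hv ha ho
        set a := qv (slice J (some (s, n))) false with hadef
        set b := qv (slice J (some (s, n))) true with hbdef
        have hFv : ¬ DSide aᶜ bᶜ := hF s n hv
        have hb : b ∈ U ∧ rho b < rho aᶜ := by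
          by_contra hh
          exact hFv ⟨ha, by simpa using hh⟩
        obtain ⟨k, hk⟩ := nonempty_of_mem_U hb.1
        obtain ⟨i, hi⟩ := Ultrafilter.nonempty_of_mem hk
        have hv' : W (some (s, n + 1)) := next (some (s, n), (true, k, i)) hv hi
        have hsub : qv (slice J (some (s, n + 1))) false ⊆ bᶜ :=
          qv_subset_compl fun x hx hx' => hNJ (some (s, n), (true, x)) hx' hx
        have hb' : b ⊆ (qv (slice J (some (s, n + 1))) false)ᶜ :=
          subset_compl_comm.1 hsub
        exact ih (rho (qv (slice J (some (s, n + 1))) false)ᶜ)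
          (ho ▸ (rho_anti hb.1 hb').trans_lt hb.2) s (n + 1) hv'
          (Filter.mem_of_superset hb.1 hb') rfl
    by_cases h0 : W none
    · have hc : ∃ s, qv (slice J none) s ∈ U := by
        by_contra hh
        push Not at hh
        refine h0.1 ?_
        rw [← sliceEq none h0]
        exact ⟨hh false, hh true⟩
      obtain ⟨s, hs⟩ := hc
      obtain ⟨k, hk⟩ := nonempty_of_mem_U hs
      obtain ⟨i, hi⟩ := Ultrafilter.nonempty_of_mem hk
      have hv' : W (some (s, 0)) := next (none, (s, k, i)) h0 hi
      have hsub : qv (slice J (some (s, 0))) false ⊆ (qv (slice J none) s)ᶜ :=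
        qv_subset_compl fun x hx hx' => hNJ (none, (s, x)) hx' hx
      exact noChain _ s 0 hv' (Filter.mem_of_superset hs (subset_compl_comm.1 hsub)) rfl
    · obtain ⟨v, hv⟩ := hW
      rcases v with _ | ⟨s, n⟩
      · exact h0 hv
      classical
      have hex : ∃ n, W (some (s, n)) := ⟨n, hv⟩
      have hm := Nat.find_spec hex
      have hempty : qv (slice J (some (s, Nat.find hex))) false = ∅ := by
        refine eq_empty_iff_forall_notMem.2 fun k hk => ?_
        obtain ⟨i, hi⟩ := Ultrafilter.nonempty_of_mem hk
        generalize hM0 : Nat.find hex = m at hi hm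
        have := next (some (s, m), (false, k, i)) hm hi
        cases m with
        | zero => exact h0 this
        | succ j => exact Nat.find_min hex (show j < Nat.find hex by omega) this
      exact noChain _ s _ hm (by rw [hempty, compl_empty]; exact Filter.univ_mem) rfl
  · -- an orientation
    push Not at hW
    have either : ∀ e : Elt, e ∈ J ↔ mate e ∉ J := by
      intro e
      refine ⟨hNJ e, fun hm => ?_⟩
      rcases cover e with h | h | h | h
      · exact hJ ▸ Or.inl h
      · exact absurd h (hW _)
      · exact hJ ▸ Or.inr h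
      · exact absurd (hJ ▸ Or.inr h) hm
    have noChain : ∀ o : Ordinal.{0}, ∀ s n, qv (slice J (some (s, n))) false ∈ U →
        rho (qv (slice J (some (s, n))) false) ≠ o := by
      intro o
      induction o using WellFoundedLT.induction with
      | _ o ih =>
        intro s n ha ho
        set a := qv (slice J (some (s, n))) false with hadef
        set b := qv (slice J (some (s, n))) true with hbdef
        have hDv : ¬ DSide a b :=
          (hind (some (s, n))).1
        have hb : bᶜ ∈ U ∧ rho bᶜ < rho a := by
          by_contra hh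
          exact hDv ⟨ha, hh⟩
        have heq : qv (slice J (some (s, n + 1))) false = bᶜ :=
          fib_compl_mem fun x => by
            have := either (some (s, n + 1), (false, x))
            exact this
        exact ih _ (ho ▸ hb.2) s (n + 1) (heq ▸ hb.1) (by rw [heq])
    have hnD : ¬ DS centreSep (slice J none) := (hind none).1
    obtain ⟨s, hs⟩ : ∃ s, qv (slice J none) s ∉ U := by
      by_contra hh
      push Not at hh
      exact hnD ⟨hh false, hh true⟩
    have heq : qv (slice J (some (s, 0))) false = (qv (slice J none) s)ᶜ :=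
      fib_compl_mem fun x => either (some (s, 0), (false, x))
    exact noChain _ s 0 (by rw [heq]; exact compl_mem_U.2 hs) rfl

/-- A pair of matroids on a countable set failing intersection. -/
theorem exists_counterexample :
    ∃ M N : Matroid Elt, M.E = Set.univ ∧ N.E = Set.univ ∧ ¬ SatisfiesIntersection M N :=
  ⟨vertexMat, pairMatroid.matroid, vertexMat_ground, rfl, not_satisfiesIntersection⟩

end Vale.Agent.P068.ZFC
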