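import Vale.Agent.P068.ZFC.Block
import Mathlib.Data.ENat.Lattice

open Set Filter

namespace Vale.Agent.P068.ZFC

open Vale.Agent.P068 (Loc Sep fib)

variable {σ : Sep}

lemma qv_univ (c : Bool) : qv univ c = univ := by
  ext n
  simp only [qv, fib, mem_univ, setOf_true, mem_ofPred_eq, iff_true]
  exact Filter.univ_mem

lemma qv_empty (c : Bool) : qv ∅ c = ∅ := by
  ext n
  simp [qv, fib]

lemma le_refl' (S : Set Loc) : Le S S := le_of_subset subset_rfl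

/-- The first forbidden pattern. -/
def DS (σ : Sep) (S : Set Loc) : Prop := σ.D (qv S false) (qv S true)

/-- The second forbidden pattern. -/
def FS (σ : Sep) (S : Set Loc) : Prop := σ.F (qv S false) (qv S true)

lemma DS.mono {S T : Set Loc} (h : Le S T) (hS : DS σ S) : DS σ T :=
  σ.up (qv_mono h _) (qv_mono h _) hS

lemma FS.anti {S T : Set Loc} (h : Le S T) (hT : FS σ T) : FS σ S :=
  σ.down (qv_mono h _) (qv_mono h _) hT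

lemma not_DS_FS {S : Set Loc} (hD : DS σ S) : ¬ FS σ S := fun hF => σ.disj _ _ ⟨hD, hF⟩

lemma DS_univ : DS σ univ := by
  rw [DS, qv_univ, qv_univ]; exact σ.top

lemma FS_empty : FS σ ∅ := by
  rw [FS, qv_empty, qv_empty]; exact σ.bot

/-- A class: a set up to null sets, with a threshold. -/
abbrev Cls : Type := Set Loc × (ℕ → ℕ∞)

/-- The threshold of a set generated by some classes. -/
noncomputable def Phi (𝒦 : Set Cls) (S : Set Loc) (n : ℕ) : ℕ∞ :=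
  ⨅ x, ⨅ (_ : x ∈ 𝒦 ∧ Le x.1 S), x.2 n

lemma Phi_le {𝒦 : Set Cls} {x : Cls} (hx : x ∈ 𝒦) {S : Set Loc} (h : Le x.1 S) (n : ℕ) :
    Phi 𝒦 S n ≤ x.2 n :=
  iInf₂_le x ⟨hx, h⟩

lemma le_Phi {𝒦 : Set Cls} {S : Set Loc} {n : ℕ} {c : ℕ∞}
    (h : ∀ x ∈ 𝒦, Le x.1 S → c ≤ x.2 n) : c ≤ Phi 𝒦 S n :=
  le_iInf₂ fun x hx => h x hx.1 hx.2

lemma Phi_anti (𝒦 : Set Cls) {S T : Set Loc} (h : Le S T) (n : ℕ) : Phi 𝒦 T n ≤ Phi 𝒦 S n :=
  le_Phi fun _ hx hxS => Phi_le hx (hxS.trans h) n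

/-- Middle classes with antitone thresholds. -/
structure Good (σ : Sep) (𝒦 : Set Cls) : Prop where
  mid : ∀ x ∈ 𝒦, ¬ DS σ x.1 ∧ ¬ FS σ x.1
  anti : ∀ x ∈ 𝒦, ∀ y ∈ 𝒦, Le x.1 y.1 → ∀ n, y.2 n ≤ x.2 n

lemma Phi_of_FS {𝒦 : Set Cls} (hg : Good σ 𝒦) {S : Set Loc} (hS : FS σ S) (n : ℕ) :
    Phi 𝒦 S n = ⊤ :=
  top_unique (le_Phi fun x hx h => absurd (hS.anti h) (hg.mid x hx).2)

/-- A set whose class has been fixed. -/
def Fz (𝒦 : Set Cls) (S : Set Loc) : Prop := ∃ x ∈ 𝒦, Le x.1 S ∧ Le S x.1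

lemma Fz.mono {𝒦 𝒦' : Set Cls} (h : 𝒦 ⊆ 𝒦') {S : Set Loc} (hS : Fz 𝒦 S) : Fz 𝒦' S :=
  hS.imp fun _ hx => ⟨h hx.1, hx.2⟩

lemma Good.Phi_eq {𝒦 : Set Cls} (hg : Good σ 𝒦) {x : Cls} (hx : x ∈ 𝒦) {S : Set Loc}
    (h₁ : Le x.1 S) (h₂ : Le S x.1) (n : ℕ) : Phi 𝒦 S n = x.2 n :=
  le_antisymm (Phi_le hx h₁ n) (le_Phi fun y hy hyS => hg.anti y hy x hx (hyS.trans h₂) n)

/-- A set whose status no longer changes. -/
def Stable (σ : Sep) (𝒦 : Set Cls) (S : Set Loc) : Prop := DS σ S ∨ FS σ S ∨ Fz 𝒦 S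

/-- Independence. -/
def Ind (σ : Sep) (𝒦 : Set Cls) (S : Set Loc) : Prop :=
  ¬ DS σ S ∧ (FS σ S ∨ ∃ᶠ n in atTop, (cnt S n : ℕ∞) ≤ Phi 𝒦 S n)

/-- Spanning. -/
def Spn (σ : Sep) (𝒦 : Set Cls) (S : Set Loc) : Prop :=
  ¬ FS σ S ∧ (DS σ S ∨ ∀ᶠ n in atTop, Phi 𝒦 S n ≤ (cnt S n : ℕ∞))

lemma Phi_congr {𝒦 𝒦' : Set Cls} (hg : Good σ 𝒦) (hg' : Good σ 𝒦') (h : 𝒦 ⊆ 𝒦') {S : Set Loc}
    (hS : Fz 𝒦 S) (n : ℕ) : Phi 𝒦' S n = Phi 𝒦 S n := by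
  obtain ⟨x, hx, h₁, h₂⟩ := hS
  rw [hg.Phi_eq hx h₁ h₂, hg'.Phi_eq (h hx) h₁ h₂]

lemma ind_congr {𝒦 𝒦' : Set Cls} (hg : Good σ 𝒦) (hg' : Good σ 𝒦') (h : 𝒦 ⊆ 𝒦') {S : Set Loc}
    (hS : Stable σ 𝒦 S) : Ind σ 𝒦' S ↔ Ind σ 𝒦 S := by
  rcases hS with hD | hF | hz
  · simp [Ind, hD]
  · simp [Ind, hF]
  · simp only [Ind, Phi_congr hg hg' h hz]

lemma spn_congr {𝒦 𝒦' : Set Cls} (hg : Good σ 𝒦) (hg' : Good σ 𝒦') (h : 𝒦 ⊆ 𝒦') {S : Set Loc}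
    (hS : Stable σ 𝒦 S) : Spn σ 𝒦' S ↔ Spn σ 𝒦 S := by
  rcases hS with hD | hF | hz
  · simp [Spn, hD]
  · simp [Spn, hF]
  · simp only [Spn, Phi_congr hg hg' h hz]

lemma ind_or_spn (σ : Sep) (𝒦 : Set Cls) (S : Set Loc) : Ind σ 𝒦 S ∨ Spn σ 𝒦 S := by
  by_cases hD : DS σ S
  · exact Or.inr ⟨not_DS_FS hD, Or.inl hD⟩
  by_cases hF : FS σ S
  · exact Or.inl ⟨hD, Or.inl hF⟩
  by_cases h : ∃ᶠ n in atTop, (cnt S n : ℕ∞) ≤ Phi 𝒦 S n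
  · exact Or.inl ⟨hD, Or.inr h⟩
  · exact Or.inr ⟨hF, Or.inr ((not_frequently.1 h).mono fun n hn => (not_le.1 hn).le)⟩

lemma Ind.subset {𝒦 : Set Cls} {S T : Set Loc} (hT : Ind σ 𝒦 T) (h : S ⊆ T) : Ind σ 𝒦 S := by
  refine ⟨fun hD => hT.1 (hD.mono (le_of_subset h)), ?_⟩
  rcases hT.2 with hF | hf
  · exact Or.inl (hF.anti (le_of_subset h))
  · exact Or.inr (hf.mono fun n hn =>
      (Nat.cast_le.2 (cnt_mono h n)).trans (hn.trans (Phi_anti 𝒦 (le_of_subset h) n)))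

lemma Spn.superset {𝒦 : Set Cls} {S T : Set Loc} (hS : Spn σ 𝒦 S) (h : S ⊆ T) : Spn σ 𝒦 T := by
  refine ⟨fun hF => hS.1 (hF.anti (le_of_subset h)), ?_⟩
  rcases hS.2 with hD | he
  · exact Or.inl (hD.mono (le_of_subset h))
  · exact Or.inr (he.mono fun n hn =>
      (Phi_anti 𝒦 (le_of_subset h) n).trans (hn.trans (Nat.cast_le.2 (cnt_mono h n))))

lemma eventually_cnt_lt {S T : Set Loc} (h : S ⊂ T) : ∀ᶠ n in atTop, cnt S n < cnt T n := by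
  obtain ⟨p, hpT, hpS⟩ := exists_of_ssubset h
  filter_upwards [eventually_cnt_of_finite (finite_singleton p)] with n hn
  have h1 := cnt_mono (singleton_subset_iff.2 (show p ∈ T \ S from ⟨hpT, hpS⟩)) n
  rw [hn, ncard_singleton] at h1
  have h2 := cnt_add_diff h.subset n
  omega

lemma not_ind_of_ssubset {𝒦 : Set Cls} {S T : Set Loc} (hS : Spn σ 𝒦 S) (h : S ⊂ T) :
    ¬ Ind σ 𝒦 T := by
  intro hT
  have he : ∀ᶠ n in atTop, Phi 𝒦 S n ≤ (cnt S n : ℕ∞) :=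
    hS.2.resolve_left fun hD => hT.1 (hD.mono (le_of_subset h.subset))
  have hf : ∃ᶠ n in atTop, (cnt T n : ℕ∞) ≤ Phi 𝒦 T n :=
    hT.2.resolve_left fun hF => hS.1 (hF.anti (le_of_subset h.subset))
  obtain ⟨n, hn, hn', hlt⟩ := (hf.and_eventually (he.and (eventually_cnt_lt h))).exists
  exact absurd (hn.trans ((Phi_anti 𝒦 (le_of_subset h.subset) n).trans hn'))
    (not_le.2 (Nat.cast_lt.2 hlt))

lemma le_insert (p : Loc) (S : Set Loc) : Le (insert p S) S :=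
  (null_of_finite (finite_singleton p)).subset fun _ hq => hq.1.resolve_right hq.2

lemma ind_insert {𝒦 : Set Cls} {S : Set Loc} (p : Loc) (hS : Ind σ 𝒦 S) (hs : ¬ Spn σ 𝒦 S) :
    Ind σ 𝒦 (insert p S) := by
  have h₁ := le_insert p S
  have h₂ := le_of_subset (subset_insert p S)
  refine ⟨fun hD => hS.1 (hD.mono h₁), ?_⟩
  by_cases hF : FS σ S
  · exact Or.inl (hF.anti h₁)
  · have : ∃ᶠ n in atTop, (cnt S n : ℕ∞) < Phi 𝒦 S n := by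
      by_contra hc
      exact hs ⟨hF, Or.inr ((not_frequently.1 hc).mono fun n hn => not_lt.1 hn)⟩
    refine Or.inr (this.mono fun n hn => ?_)
    have hle : cnt (insert p S) n ≤ cnt S n + 1 := by
      rw [insert_eq, union_comm]
      refine (cnt_union_le S {p} n).trans (add_le_add le_rfl ?_)
      exact (ncard_le_ncard inter_subset_left).trans (ncard_singleton p).le
    calc (cnt (insert p S) n : ℕ∞) ≤ ((cnt S n + 1 : ℕ) : ℕ∞) := Nat.cast_le.2 hle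
      _ ≤ Phi 𝒦 S n := by
        push_cast
        exact Order.add_one_le_of_lt hn
      _ ≤ Phi 𝒦 (insert p S) n := Phi_anti 𝒦 h₁ n

end Vale.Agent.P068.ZFC
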