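import Vale.Agent.P068.ZFC.Block
import Mathlib.Data.Nat.Bitwise
import Mathlib.Algebra.BigOperators.Intervals
import Mathlib.Algebra.Order.BigOperators.Ring.Finset
import Mathlib.SetTheory.Cardinal.Continuum
import Mathlib.SetTheory.Cardinal.Arithmetic
import Mathlib.Tactic.Ring

open Set Filter

namespace Vale.Agent.P068.ZFC

open Vale.Agent.P068 (Loc U fib)

/-- The number coded by an initial segment of a binary sequence. -/
def code (r : ℕ → Bool) : ℕ → ℕ
  | 0 => 0
  | L + 1 => Nat.bit (r L) (code r L)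

lemma code_lt (r : ℕ → Bool) (L : ℕ) : code r L < 2 ^ L := by
  induction L with
  | zero => simp [code]
  | succ L ih =>
    simp only [code, Nat.bit_val, pow_succ]
    cases r L <;> simp <;> omega

lemma code_inj {r s : ℕ → Bool} : ∀ {L}, code r L = code s L → ∀ j < L, r j = s j
  | 0, _, j, hj => absurd hj (Nat.not_lt_zero j)
  | L + 1, h, j, hj => by
    simp only [code] at h
    have hn := congrArg (· / 2) h
    have hb := congrArg (Nat.testBit · 0) h
    simp only [Nat.bit_div_two] at hn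
    simp only [Nat.testBit_bit_zero] at hb
    rcases Nat.lt_succ_iff_lt_or_eq.1 hj with hj | rfl
    · exact code_inj hn j hj
    · exact hb

/-- The coordinate read by `r` in block `e`. -/
def kk (r : ℕ → Bool) (e : ℕ) : ℕ := code r (Nat.log 2 e)

lemma kk_lt (r : ℕ → Bool) {e : ℕ} (he : 1 ≤ e) : kk r e < e :=
  (code_lt r _).trans_le (Nat.pow_log_le_self 2 (by omega))

lemma eventually_kk_ne {r s : ℕ → Bool} (h : r ≠ s) :
    ∀ᶠ e in atTop, kk r e ≠ kk s e := by
  obtain ⟨j, hj⟩ := Function.ne_iff.1 h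
  filter_upwards [eventually_ge_atTop (2 ^ (j + 1))] with e he hcode
  refine hj (code_inj hcode j ?_)
  have := Nat.le_log_of_pow_le one_lt_two he
  omega

/-- The bit of a number chosen by `r`. -/
def bit' (r : ℕ → Bool) (i : ℕ) : Bool :=
  (i + 1 - 2 ^ blkOf i).testBit (kk r (blkOf i))

/-- A sign from a bit. -/
def sgn (b : Bool) : ℝ := if b then 1 else -1

/-- The quasi-orthogonal signs. -/
def eps (r : ℕ → Bool) (i : ℕ) : ℝ := sgn (bit' r i)

lemma eps_sq (r : ℕ → Bool) (i : ℕ) : eps r i * eps r i = 1 := by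
  unfold eps sgn
  split_ifs <;> norm_num

lemma sum_blk (e : ℕ) (f : ℕ → ℝ) :
    ∑ i ∈ blk e, f i = ∑ j ∈ Finset.range (2 ^ e), f (2 ^ e - 1 + j) := by
  rw [blk, Finset.sum_Ico_eq_sum_range]
  congr 2
  have := Nat.one_le_two_pow (n := e)
  rw [pow_succ]
  omega

lemma sum_eps_mul {r s : ℕ → Bool} {e : ℕ} (he : 1 ≤ e) (h : kk r e ≠ kk s e) :
    ∑ i ∈ blk e, eps r i * eps s i = 0 := by
  rw [sum_blk]
  have hpos := Nat.one_le_two_pow (n := e)
  have hval : ∀ (t : ℕ → Bool), ∀ j ∈ Finset.range (2 ^ e),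
      eps t (2 ^ e - 1 + j) = sgn (j.testBit (kk t e)) := by
    intro t j hj
    rw [Finset.mem_range] at hj
    have hb : blkOf (2 ^ e - 1 + j) = e := by
      refine blkOf_eq ?_
      simp only [blk, Finset.mem_Ico, pow_succ]
      omega
    simp only [eps, bit', hb]
    congr 2
    omega
  rw [Finset.sum_congr rfl fun j hj => by rw [hval r j hj, hval s j hj]]
  refine Finset.sum_involution (fun j _ => j ^^^ 2 ^ kk r e) ?_ ?_ ?_ ?_
  · intro j _
    simp only [Nat.testBit_xor, Nat.testBit_two_pow]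
    cases j.testBit (kk r e) <;> cases j.testBit (kk s e) <;> simp [h, sgn]
  · intro j _ _ hjj
    have := congrArg (fun m : ℕ => m.testBit (kk r e)) hjj
    simp at this
  · intro j hj
    rw [Finset.mem_range] at hj ⊢
    exact Nat.xor_lt_two_pow hj (Nat.pow_lt_pow_right one_lt_two (kk_lt r he))
  · intro j _
    simp

/-- Bessel: a bounded function correlates with few of the sign sequences. -/
lemma finite_bad {w : ℕ → ℝ} (hw : ∀ i, |w i| ≤ 1) (k : ℕ) :
    {r : ℕ → Bool | {e | (k : ℝ) * |∑ i ∈ blk e, w i * eps r i| ≤ 2 ^ e} ∉ U}.Finite := by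
  classical
  by_contra hinf
  obtain ⟨F, hF, hcard⟩ := Set.Infinite.exists_subset_card_eq hinf (k ^ 2 + 1)
  have h1 : ∀ r ∈ F, {e | (2 : ℝ) ^ e < k * |∑ i ∈ blk e, w i * eps r i|} ∈ U := by
    intro r hr
    refine Filter.mem_of_superset (compl_mem_U.2 (hF hr)) fun e he => ?_
    simpa using he
  have h2 : {e | 1 ≤ e ∧ ∀ r ∈ F, ∀ s ∈ F, r ≠ s → kk r e ≠ kk s e} ∈ U := by
    refine eventually_mem_U ((eventually_ge_atTop 1).and ?_)
    simp only [eventually_all_finset]
    intro r _ s _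
    by_cases hrs : r = s
    · simp [hrs]
    · exact (eventually_kk_ne hrs).mono fun e he _ => he
  obtain ⟨e, ⟨he1, hne⟩, he2⟩ := Ultrafilter.nonempty_of_mem
    (Filter.inter_mem h2 ((Filter.biInter_finset_mem F).2 h1))
  have hlarge : ∀ r ∈ F, (2 : ℝ) ^ e ≤ k * |∑ i ∈ blk e, w i * eps r i| := fun r hr =>
    (Set.mem_iInter₂.1 he2 r hr : _ < _).le
  let a : (ℕ → Bool) → ℝ := fun r => ∑ i ∈ blk e, w i * eps r i
  let s : (ℕ → Bool) → ℝ := fun r => sgn (decide (0 ≤ a r))
  have habs : ∀ r, s r * a r = |a r| := by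
    intro r
    by_cases hr : 0 ≤ a r
    · simp [s, sgn, hr, abs_of_nonneg hr]
    · simp [s, sgn, hr, abs_of_neg (not_le.1 hr)]
  have hs : ∀ r, s r * s r = 1 := by
    intro r
    simp only [s, sgn]
    split_ifs <;> norm_num
  let g : ℕ → ℝ := fun i => ∑ r ∈ F, s r * eps r i
  have hsum : ∑ i ∈ blk e, w i * g i = ∑ r ∈ F, |a r| := by
    simp only [g, Finset.mul_sum]
    rw [Finset.sum_comm]
    refine Finset.sum_congr rfl fun r _ => ?_
    rw [← habs r, Finset.mul_sum]
    exact Finset.sum_congr rfl fun i _ => by ring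
  have hgg : ∑ i ∈ blk e, g i ^ 2 = F.card * 2 ^ e := by
    simp only [g, sq, Finset.sum_mul_sum]
    rw [Finset.sum_comm]
    rw [Finset.sum_congr rfl fun r hr => ?_]
    · rw [Finset.sum_const, nsmul_eq_mul]
    rw [Finset.sum_comm, Finset.sum_eq_single r]
    · rw [Finset.sum_congr rfl fun i _ => ?_]
      · rw [Finset.sum_const, card_blk, nsmul_eq_mul, mul_one]
        push_cast
        rfl
      rw [mul_mul_mul_comm, hs, eps_sq, one_mul]
    · intro t ht htr
      rw [Finset.sum_congr rfl fun i _ => mul_mul_mul_comm (s r) (eps r i) (s t) (eps t i),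
        ← Finset.mul_sum, sum_eps_mul he1 (hne r hr t ht (Ne.symm htr)), mul_zero]
    · exact fun h => absurd hr h
  have hww : ∑ i ∈ blk e, w i ^ 2 ≤ 2 ^ e := by
    refine (Finset.sum_le_card_nsmul _ _ 1 fun i _ => ?_).trans ?_
    · exact (sq_le_one_iff_abs_le_one (w i)).2 (hw i)
    · rw [card_blk, nsmul_eq_mul, mul_one]; push_cast; exact le_rfl
  have hcs := Finset.sum_mul_sq_le_sq_mul_sq (blk e) w g
  rw [hsum, hgg] at hcs
  have hlow : (F.card : ℝ) * 2 ^ e ≤ k * ∑ r ∈ F, |a r| := by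
    rw [Finset.mul_sum, ← nsmul_eq_mul, ← Finset.sum_const]
    exact Finset.sum_le_sum hlarge
  have hP : (0 : ℝ) < 2 ^ e := by positivity
  have hM : (F.card : ℝ) = k ^ 2 + 1 := by rw [hcard]; push_cast; ring
  have hnn : 0 ≤ ∑ r ∈ F, |a r| := Finset.sum_nonneg fun r _ => abs_nonneg _
  have hMpos : (0 : ℝ) ≤ F.card := Nat.cast_nonneg _
  have hk0 : (0 : ℝ) ≤ (k : ℝ) ^ 2 := sq_nonneg _
  have hA : (∑ r ∈ F, |a r|) ^ 2 ≤ (2 ^ e) * (F.card * 2 ^ e) :=
    hcs.trans (mul_le_mul_of_nonneg_right hww (by positivity))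
  have hB : ((F.card : ℝ) * 2 ^ e) ^ 2 ≤ (k : ℝ) ^ 2 * ((2 ^ e) * (F.card * 2 ^ e)) := by
    refine (pow_le_pow_left₀ (by positivity) hlow 2).trans ?_
    rw [mul_pow]
    exact mul_le_mul_of_nonneg_left hA hk0
  have hC : (F.card : ℝ) * (F.card * (2 ^ e * 2 ^ e)) ≤ (k : ℝ) ^ 2 * (F.card * (2 ^ e * 2 ^ e)) := by
    calc _ = ((F.card : ℝ) * 2 ^ e) ^ 2 := by ring
      _ ≤ _ := hB
      _ = _ := by ring
  have := le_of_mul_le_mul_right hC (by rw [hM]; positivity)
  linarith

open Cardinal in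
/-- Some sign sequence is orthogonal to fewer than continuum many bounded functions. -/
lemma exists_orth (W : Set (ℕ → ℝ)) (hW : #W < 𝔠) (hb : ∀ w ∈ W, ∀ i, |w i| ≤ 1) :
    ∃ r : ℕ → Bool, ∀ w ∈ W, Negl fun i => w i * eps r i := by
  let bad : Set (ℕ → Bool) := ⋃ w ∈ W, ⋃ k : ℕ,
    {r | {e | (k : ℝ) * |∑ i ∈ blk e, w i * eps r i| ≤ 2 ^ e} ∉ U}
  have hbad : Cardinal.mk bad < 𝔠 := by
    refine (mk_biUnion_le _ _).trans_lt (mul_lt_of_lt aleph0_le_continuum hW ?_)
    refine lt_of_le_of_lt (ciSup_le' fun w => ?_) aleph0_lt_continuum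
    exact (countable_iUnion fun k => (finite_bad (hb w.1 w.2) k).countable).le_aleph0
  have : badᶜ.Nonempty := by
    by_contra h
    rw [Set.not_nonempty_iff_eq_empty, compl_empty_iff] at h
    rw [h, mk_univ] at hbad
    simp at hbad
  obtain ⟨r, hr⟩ := this
  refine ⟨r, fun w hw k => ?_⟩
  by_contra h
  exact hr (mem_iUnion₂.2 ⟨w, hw, mem_iUnion.2 ⟨k, h⟩⟩)

/-- One half of every block. -/
def piece (r : ℕ → Bool) (b : Bool) : Set ℕ := {i | bit' r i = b}

lemma compl_piece (r : ℕ → Bool) (b : Bool) : (piece r b)ᶜ = piece r !b := by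
  ext i
  cases b <;> simp [piece]

lemma NullN.of_piece {H : Set ℕ} {r : ℕ → Bool} {b : Bool}
    (h : Negl fun i => H.indicator 1 i * eps r i) (hH : NullN (H ∩ piece r b)) : NullN H := by
  have h2 := hH.add hH
  cases b
  · refine (h2.add h).of_eq fun i => ?_
    by_cases hi : i ∈ H <;> by_cases hb : bit' r i <;>
      simp [Set.indicator, piece, hi, hb, eps, sgn]
  · refine (h2.add h.neg).of_eq fun i => ?_
    by_cases hi : i ∈ H <;> by_cases hb : bit' r i <;>
      simp [Set.indicator, piece, hi, hb, eps, sgn]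

end Vale.Agent.P068.ZFC
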