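import Vale.Agent.P068.ZFC.Rule
import Vale.Agent.P068.ZFC.Walsh

open Set Filter

namespace Vale.Agent.P068.ZFC

open Vale.Agent.P068 (Loc Sep fib U)

variable {σ : Sep}

/-- A good extension of `𝒦` with a fixed base between `I` and `X`. -/
def Extends (σ : Sep) (𝒦 : Set Cls) (I X : Set Loc) : Prop :=
  ∃ N : Set Cls, N.Finite ∧ Good σ (𝒦 ∪ N) ∧
    ∃ B, I ⊆ B ∧ B ⊆ X ∧ Ind σ (𝒦 ∪ N) B ∧ Spn σ (𝒦 ∪ N) B ∧ Fz (𝒦 ∪ N) B

lemma Good.insert {𝒦 : Set Cls} (hg : Good σ 𝒦) {x : Cls} (hm : ¬ DS σ x.1 ∧ ¬ FS σ x.1)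
    (hup : ∀ y ∈ 𝒦, Le x.1 y.1 → ∀ n, y.2 n ≤ x.2 n)
    (hdown : ∀ y ∈ 𝒦, Le y.1 x.1 → ∀ n, x.2 n ≤ y.2 n) : Good σ (insert x 𝒦) where
  mid := by
    rintro y (rfl | hy)
    · exact hm
    · exact hg.mid y hy
  anti := by
    rintro y (rfl | hy) z (rfl | hz) h n
    · exact le_rfl
    · exact hup z hz h n
    · exact hdown y hy h n
    · exact hg.anti y hy z hz h n

/-- Fixing the class of one set. -/
lemma exists_stable {𝒦 : Set Cls} (hg : Good σ 𝒦) (S : Set Loc) :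
    ∃ N : Set Cls, N.Finite ∧ Good σ (𝒦 ∪ N) ∧ Stable σ (𝒦 ∪ N) S := by
  by_cases hS : DS σ S ∨ FS σ S
  · exact ⟨∅, finite_empty, by rwa [union_empty],
      hS.elim Or.inl fun h => Or.inr (Or.inl h)⟩
  push Not at hS
  refine ⟨{(S, Phi 𝒦 S)}, finite_singleton _, ?_, Or.inr (Or.inr ⟨(S, Phi 𝒦 S), Or.inr rfl, le_refl' S, le_refl' S⟩)⟩
  rw [union_singleton]
  refine hg.insert hS (fun y hy h n => ?_) (fun y hy h n => Phi_le hy h n)
  exact (hg.Phi_eq hy (le_refl' _) (le_refl' _) n).symm.le.trans (Phi_anti 𝒦 h n)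

lemma fz_of_base {𝒦 : Set Cls} {S : Set Loc} (hs : Stable σ 𝒦 S) (hi : Ind σ 𝒦 S)
    (hp : Spn σ 𝒦 S) : Fz 𝒦 S :=
  (hs.resolve_left hi.1).resolve_left hp.1

lemma extends_self {𝒦 : Set Cls} (hg : Good σ 𝒦)
    {I X B : Set Loc} (hIB : I ⊆ B) (hBX : B ⊆ X) (hi : Ind σ 𝒦 B) (hp : Spn σ 𝒦 B)
    (hz : Fz 𝒦 B) : Extends σ 𝒦 I X :=
  ⟨∅, finite_empty, by rwa [union_empty], B, hIB, hBX, by rwa [union_empty], by rwa [union_empty],
    by rwa [union_empty]⟩

lemma cnt_add_finite {I E : Set Loc} (hd : Disjoint I E) (hE : E.Finite) :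
    ∀ᶠ n in atTop, cnt (I ∪ E) n = cnt I n + E.ncard := by
  filter_upwards [eventually_cnt_of_finite hE] with n hn
  have := cnt_add_diff (subset_union_left (s := I) (t := E)) n
  rw [show (I ∪ E) \ I = E by
    rw [union_sdiff_left]; exact sdiff_eq_left.2 hd.symm, hn] at this
  omega

lemma Le.union_finite {I E : Set Loc} (hE : E.Finite) : Le (I ∪ E) I :=
  (null_of_finite hE).subset fun _ hp => hp.1.resolve_left hp.2

lemma Fz.congr {𝒦 : Set Cls} {S T : Set Loc} (h : Fz 𝒦 S) (h₁ : Le S T) (h₂ : Le T S) :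
    Fz 𝒦 T :=
  h.imp fun _ hx => ⟨hx.1, hx.2.1.trans h₁, h₂.trans hx.2.2⟩

/-- The threshold at `I` is at bounded distance from the count. -/
lemma extends_low {𝒦 : Set Cls} (hg : Good σ 𝒦)
    {I X : Set Loc} (hIX : I ⊆ X) (hI : Ind σ 𝒦 I) (hsI : Stable σ 𝒦 I) (hnI : ¬ Spn σ 𝒦 I)
    (hnX : ¬ Ind σ 𝒦 X) (hF : ¬ FS σ I)
    (hk : ∃ k : ℕ, ∀ᶠ n in atTop, Phi 𝒦 I n ≤ ((cnt I n + k : ℕ) : ℕ∞)) :
    Extends σ 𝒦 I X := by
  classical
  set k := Nat.find hk with hkdef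
  have hev := Nat.find_spec hk
  have hfr : ∀ j < k, ∃ᶠ n in atTop, ((cnt I n + (j + 1) : ℕ) : ℕ∞) ≤ Phi 𝒦 I n := by
    intro j hj
    refine (not_eventually.1 (Nat.find_min hk hj)).mono fun n hn => ?_
    rw [← add_assoc, Nat.cast_add, Nat.cast_one]
    exact Order.add_one_le_of_lt (not_le.1 hn)
  have hk1 : 1 ≤ k := by
    by_contra h
    have h0 : k = 0 := by omega
    refine hnI ⟨hF, Or.inr (hev.mono fun n hn => ?_)⟩
    rwa [← hkdef, h0, add_zero] at hn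
  by_cases hE : ∃ E, E ⊆ X \ I ∧ E.Finite ∧ E.ncard = k
  · obtain ⟨E, hEX, hEf, hEc⟩ := hE
    have h₁ : Le (I ∪ E) I := Le.union_finite hEf
    have h₂ : Le I (I ∪ E) := le_of_subset subset_union_left
    have hz : Fz 𝒦 (I ∪ E) := ((hsI.resolve_left hI.1).resolve_left hF).congr h₂ h₁
    have hcn := cnt_add_finite (disjoint_left.2 fun p hp hp' => (hEX hp').2 hp) hEf
    rw [hEc] at hcn
    refine extends_self hg subset_union_left (union_subset hIX fun p hp => (hEX hp).1)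
      ⟨fun h => hI.1 (h.mono h₁), Or.inr ?_⟩ ⟨fun h => hF (h.anti h₂), Or.inr ?_⟩ hz
    · refine ((hfr (k - 1) (by omega)).and_eventually hcn).mono fun n hn => ?_
      rw [hn.2, show k = k - 1 + 1 by omega]
      exact hn.1.trans (Phi_anti 𝒦 h₁ n)
    · filter_upwards [hev, hcn] with n hn hn'
      rw [hn']
      exact (Phi_anti 𝒦 h₂ n).trans hn
  · exfalso
    have hfin : (X \ I).Finite := by
      by_contra hinf
      obtain ⟨E, hE', hcard⟩ := Set.Infinite.exists_subset_card_eq hinf k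
      exact hE ⟨E, hE', E.finite_toSet, by rw [ncard_coe_finset, hcard]⟩
    have hlt : (X \ I).ncard < k := by
      by_contra hge
      obtain ⟨E, hE', hcard⟩ := exists_subset_card_eq (not_lt.1 hge)
      exact hE ⟨E, hE', hfin.subset hE', hcard⟩
    have hX : X = I ∪ X \ I := (union_sdiff_cancel hIX).symm
    have h₁ : Le X I := by rw [hX]; exact Le.union_finite hfin
    have hcn := cnt_add_finite (disjoint_sdiff_right : Disjoint I (X \ I)) hfin
    rw [← hX] at hcn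
    refine hnX ⟨fun h => hI.1 (h.mono h₁), Or.inr ?_⟩
    refine ((hfr _ hlt).and_eventually hcn).mono fun n hn => ?_
    rw [hn.2]
    exact le_trans (Nat.cast_le.2 (by omega)) (hn.1.trans (Phi_anti 𝒦 h₁ n))

/-- The threshold at `X` is at bounded distance from the count. -/
lemma extends_high {𝒦 : Set Cls} (hg : Good σ 𝒦)
    {I X : Set Loc} (hIX : I ⊆ X) (hX : Spn σ 𝒦 X) (hsX : Stable σ 𝒦 X) (hnI : ¬ Spn σ 𝒦 I)
    (hnX : ¬ Ind σ 𝒦 X) (hD : ¬ DS σ X)
    (hk : ∃ k : ℕ, ∃ᶠ n in atTop, (cnt X n : ℕ∞) ≤ Phi 𝒦 X n + k) :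
    Extends σ 𝒦 I X := by
  classical
  set k := Nat.find hk with hkdef
  have hfr := Nat.find_spec hk
  have hev : ∀ j < k, ∀ᶠ n in atTop, Phi 𝒦 X n + ((j + 1 : ℕ) : ℕ∞) ≤ (cnt X n : ℕ∞) := by
    intro j hj
    refine (not_frequently.1 (Nat.find_min hk hj)).mono fun n hn => ?_
    rw [Nat.cast_add, Nat.cast_one, ← add_assoc]
    exact Order.add_one_le_of_lt (not_le.1 hn)
  have hk1 : 1 ≤ k := by
    by_contra h
    have h0 : k = 0 := by omega
    refine hnX ⟨hD, Or.inr (hfr.mono fun n hn => ?_)⟩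
    rwa [← hkdef, h0, Nat.cast_zero, add_zero] at hn
  have hcn : ∀ E, E ⊆ X → E.Finite → ∀ᶠ n in atTop, cnt (X \ E) n + E.ncard = cnt X n := by
    intro E hEX hEf
    have := cnt_add_finite (I := X \ E) (disjoint_sdiff_left : Disjoint (X \ E) E) hEf
    rw [sdiff_union_of_subset hEX] at this
    exact this.mono fun n hn => hn.symm
  by_cases hE : ∃ E, E ⊆ X \ I ∧ E.Finite ∧ E.ncard = k
  · obtain ⟨E, hEX, hEf, hEc⟩ := hE
    have h₁ : Le (X \ E) X := le_of_subset sdiff_subset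
    have h₂ : Le X (X \ E) := (null_of_finite hEf).subset fun p hp => by
      by_contra hh
      exact hp.2 ⟨hp.1, hh⟩
    have hz : Fz 𝒦 (X \ E) := ((hsX.resolve_left hD).resolve_left hX.1).congr h₂ h₁
    have hcn' := hcn E (fun p hp => (hEX hp).1) hEf
    rw [hEc] at hcn'
    refine extends_self hg (show I ⊆ X \ E from fun p hp => ⟨hIX hp, fun h => (hEX h).2 hp⟩) sdiff_subset
      ⟨fun h => hD (h.mono h₁), Or.inr ?_⟩ ⟨fun h => hX.1 (h.anti h₂), Or.inr ?_⟩ hz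
    · refine (hfr.and_eventually hcn').mono fun n hn => ?_
      have h := hn.1.trans (add_le_add (Phi_anti 𝒦 h₁ n) (le_refl (k : ℕ∞)))
      rw [← hn.2, Nat.cast_add] at h
      exact (ENat.add_le_add_iff_right (ENat.natCast_ne_top k)).1 h
    · filter_upwards [hev (k - 1) (by omega), hcn'] with n hn hn'
      rw [show k - 1 + 1 = k by omega] at hn
      have h := (add_le_add (Phi_anti 𝒦 h₂ n) (le_refl (k : ℕ∞))).trans hn
      rw [← hn', Nat.cast_add] at h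
      exact (ENat.add_le_add_iff_right (ENat.natCast_ne_top k)).1 h
  · exfalso
    have hfin : (X \ I).Finite := by
      by_contra hinf
      obtain ⟨E, hE', hcard⟩ := Set.Infinite.exists_subset_card_eq hinf k
      exact hE ⟨E, hE', E.finite_toSet, by rw [ncard_coe_finset, hcard]⟩
    have hlt : (X \ I).ncard < k := by
      by_contra hge
      obtain ⟨E, hE', hcard⟩ := exists_subset_card_eq (not_lt.1 hge)
      exact hE ⟨E, hE', hfin.subset hE', hcard⟩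
    have h₂ : Le X I := null_of_finite hfin
    refine hnI ⟨fun h => hX.1 (h.anti h₂), Or.inr ?_⟩
    filter_upwards [hev _ hlt, hcn (X \ I) sdiff_subset hfin] with n hn hn'
    rw [sdiff_sdiff_cancel_left hIX] at hn'
    have h : Phi 𝒦 I n + (((X \ I).ncard : ℕ) : ℕ∞) ≤ Phi 𝒦 X n + (((X \ I).ncard + 1 : ℕ) : ℕ∞) :=
      add_le_add (Phi_anti 𝒦 h₂ n) (Nat.cast_le.2 (Nat.le_succ _))
    replace h := h.trans hn
    rw [← hn', Nat.cast_add] at h
    exact (ENat.add_le_add_iff_right (ENat.natCast_ne_top _)).1 h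

end Vale.Agent.P068.ZFC
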